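import Vale.Agent.P221.H903.R2

/-!
# P221, part (T1'): the lifting property of a form

`lifts_of_form` : for `φ : FormD b n B` the quotient map `φ.Q : P ⟶ B` has the lifting property.
-/

open CategoryTheory MonoidalCategory MonObj Limits Pretriangulated
open Vale.Agent.P251.T Vale.Agent.P251.S Vale.Agent.P221.H395 Vale.Agent.P221.T
open Vale.Agent.P221.T.H609 (map_of map_zs of_cls kk_mem kk_unit_inj kk_mul_apply kk_add_apply
  kk_zero_apply kk_sum_apply ext_zero_shift)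
open Vale.Agent.P221.T.H746 (RN)
open Vale.Agent.P221.T.H924 (red eq_zero_or exists_mod red_isWH red_RN sV_eq)

set_option linter.unusedSectionVars false

universe u

namespace Vale.Agent.P221.H903

variable {𝒯 : Type u} [Category.{0} 𝒯] [Preadditive 𝒯] [HasZeroObject 𝒯]
    [HasShift 𝒯 ℤ] [∀ n : ℤ, (shiftFunctor 𝒯 n).Additive] [Pretriangulated 𝒯] [IsTriangulated 𝒯]
    [MonoidalCategory 𝒯] [SymmetricCategory 𝒯] [TensorTriangulated 𝒯] [MonoidalClosed 𝒯]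
    [HasCoproducts.{0} 𝒯] [HasProducts.{0} 𝒯] [StableCat 𝒯]

variable {p n : ℕ} [Fact p.Prime] {R P W B : 𝒯} [MonObj R] [IsCommMonObj R] {b : BPS p R P W}
  (φ : FormD b n B)

/-- the annihilator of the generator modulo `p` -/
theorem red_mem_of_smul {k : ℤ} {f : KK p} (hf : HK p k f) (z : (𝟙_ 𝒯)⟦k⟧ ⟶ B)
    (h : b.kk φ.MB φ.hB f (q1 φ) = (p : ℤ) • PiM.of B k z) :
    red p f ∈ Ideal.span (xi p φ.x n '' {j : ℕ | n ≤ j}) := by
  rcases eq_zero_or p hf with rfl | ⟨m, rfl⟩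
  · rw [map_zero]
    exact Ideal.zero_mem _
  obtain ⟨g', hg', hmem⟩ := exists_mod p (xi_isWH p φ.x_deg) (coeff_xi p φ.x_mod) (red_isWH p hf)
  obtain ⟨g, hg, hgr⟩ := exists_lift_fin p hg'
  have hred : red p (f - RN p n g) = red p f - Vale.Agent.P221.H924.incl (ZMod p) g' := by
    rw [map_sub, red_RN, hgr]
  obtain ⟨m', h', e⟩ := exists_of_mem_span p (f := red p (f - RN p n g)) (by rwa [hred])
  obtain ⟨w, hw, f', hf', e'⟩ := exists_of_red p φ.x_deg (hk_sub p hf hg) m' h' e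
  have h1 : b.kk φ.MB φ.hB (f - RN p n g) (q1 φ) = (p : ℤ) • b.kk φ.MB φ.hB f' (q1 φ) := by
    rw [e', kk_add_apply, kk_sum_apply, of_zsmul]
    have h2 : ∑ l ∈ Finset.range m', b.kk φ.MB φ.hB (φ.x l * w l) (q1 φ) = 0 := by
      refine Finset.sum_eq_zero fun l _ => ?_
      rw [_root_.mul_comm, kk_mul_apply]
      have h3 : b.kk φ.MB φ.hB (φ.x l) (q1 φ) = 0 := φ.x_zero l
      rw [h3, map_zero]
    rw [h2, zero_add]
  obtain ⟨g₁, hg₁, e₁⟩ := exists_B φ (b.cls (2 * (m : ℤ)) f' ≫ φ.Q)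
  obtain ⟨g₂, hg₂, e₂⟩ := exists_B φ z
  have e₁' : b.kk φ.MB φ.hB f' (q1 φ) = b.kk φ.MB φ.hB (RN p n g₁) (q1 φ) := by
    rw [← of_cls_Q φ hf', e₁, of_cls_Q φ hg₁]
  have e₂' : PiM.of B (2 * (m : ℤ)) z = b.kk φ.MB φ.hB (RN p n g₂) (q1 φ) := by
    rw [← of_cls_Q φ hg₂, ← e₂]
  have h4 : b.kk φ.MB φ.hB f (q1 φ) = b.kk φ.MB φ.hB (f - RN p n g) (q1 φ) +
      b.kk φ.MB φ.hB (RN p n g) (q1 φ) := by
    rw [← kk_add_apply, sub_add_cancel]
  have h5 : b.kk φ.MB φ.hB (RN p n g) (q1 φ) =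
      b.kk φ.MB φ.hB (RN p n ((p : MvPolynomial (Fin n) ℤ_[p]) * (g₂ - g₁))) (q1 φ) := by
    rw [h, h1, e₂', e₁'] at h4
    have h6 := eq_sub_of_add_eq' h4.symm
    rw [h6, ← smul_sub, RN_p, ← of_zsmul]
    congr 1
    rw [sub_eq_iff_eq_add, ← kk_add_apply, ← map_add, sub_add_cancel]
  have h6 : HK p (2 * (m : ℤ)) (RN p n ((p : MvPolynomial (Fin n) ℤ_[p]) * (g₂ - g₁))) := by
    rw [RN_p, map_sub]
    exact hk_p (hk_sub p hg₂ hg₁)
  have h7 := B_inj φ hg h6 h5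
  have h8 : g' = 0 := by
    rw [← hgr, h7, map_mul, map_natCast, CharP.cast_eq_zero, zero_mul]
  rw [h8, map_zero, sub_zero] at hmem
  exact hmem

variable {S : SrcT p n P}
  (hS : ∀ l, b.c⟦dd p n l⟧' ≫ S.x l = hat b.MP (b.cls (dd p n l) (φ.x l)))
  {C : 𝒯} {i : 𝟙_ 𝒯 ⟶ C} {δ : C ⟶ (𝟙_ 𝒯)⟦(1 : ℤ)⟧}
  (hC : Triangle.mk ((p : ℤ) • 𝟙 (𝟙_ 𝒯)) i δ ∈ distTriang 𝒯)

include hS in
theorem xh_cls (l : ℕ) {k k' : ℤ} (h : k + dd p n l = k') {f : KK p} (hf : HK p k f) :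
    xh S.x C l h (b.cls k f ≫ rd i P) = b.cls k' (φ.x l * f) ≫ rd i P := by
  rw [xh_apply _ _ (show dd p n l + k = k' by omega), gc_rd, gc_cls_x φ hS l _ hf]

include hS in
/-- representations in terms of homotopy classes -/
theorem sum_xh {m : ℕ} {k : ℤ} {f f' : KK p} {w : ℕ → KK p}
    (hw : ∀ l, HK p (k - dd p n l) (w l)) (hf' : HK p k f')
    (e : f = ∑ l ∈ Finset.range m, φ.x l * w l + (p : KK p) * f')
    (hC : Triangle.mk ((p : ℤ) • 𝟙 (𝟙_ 𝒯)) i δ ∈ distTriang 𝒯) :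
    b.cls k f ≫ rd i P = ∑ l ∈ Finset.range m,
      xh S.x C l (sub_add_cancel k (dd p n l)) (b.cls (k - dd p n l) (w l) ≫ rd i P) := by
  have h1 : ∀ l, HK p k (φ.x l * w l) := fun l => by
    have := (φ.x_deg l).mul (hw l)
    rwa [add_sub_cancel] at this
  rw [e, cls_add b (hk_sum p _ _ fun l _ => h1 l) (hk_p hf'), cls_sum b _ _ fun l _ => h1 l,
    cls_p b hf', Preadditive.add_comp, zsmul_rd hC, _root_.add_zero, Preadditive.sum_comp]
  exact Finset.sum_congr rfl fun l _ => (xh_cls φ hS l _ (hw l)).symm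

include φ hC in
theorem conc_B : Conc C 0 B := by
  intro k hk y
  rw [sub_zero] at hk
  obtain ⟨z, rfl⟩ := exists_rd hC (fun z hz => tf_B φ z hz) y
  obtain ⟨f, hf, rfl⟩ := exists_B φ z
  rw [odd_hk hk hf, cls_zero, zero_comp, zero_comp]

include hS hC in
/-- the hypotheses of the lifting theorem -/
theorem khyp (hPar : ∀ K : 𝒯, H395.PComplete p K →
      (∀ (j : ℤ) (f : (𝟙_ 𝒯)⟦2 * j⟧ ⟶ K), f = 0) → ∀ f : P ⟶ K, f = 0) :
    KHyp p C S.x φ.Q where
  pP := b.cP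
  pB := φ.hB
  comm := S.comm
  even l := even_two_mul _
  nonneg l := H769.dd_nonneg (Fact.out : p.Prime).pos n l
  x_q l := x_Q φ hS l
  cP := conc_P b hC
  cB := conc_B φ hC
  par K hK hc f := hPar K hK (fun j g => hK.hom_eq_zero_of_mod hC (fun g => hc (2 * j)
    ⟨j - 1, by ring⟩ g) g) f
  onto k y := by
    obtain ⟨z, rfl⟩ := exists_rd hC (fun z hz => tf_B φ z hz) y
    obtain ⟨f, hf, rfl⟩ := exists_B φ z
    exact ⟨b.cls k (RN p n f) ≫ rd i P, by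
      rw [Category.assoc, ← rd_naturality, Category.assoc]⟩
  ker k y hy := by
    obtain ⟨f, hf, rfl⟩ := exists_cls_rd b hC y
    rw [Category.assoc, ← rd_naturality, ← Category.assoc] at hy
    obtain ⟨z, hz⟩ := exists_of_rd hC _ hy
    obtain ⟨m, h, e⟩ := exists_of_mem_span p (red_mem_of_smul φ hf z (by
      rw [← of_cls_Q φ hf, ← hz, map_zsmul]))
    obtain ⟨w, hw, f', hf', e'⟩ := exists_of_red p φ.x_deg hf m h e
    exact ⟨m, fun l => b.cls (k - dd p n l) (w l) ≫ rd i P, sum_xh φ hS hw hf' e' hC⟩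
  reg m k y w e := by
    obtain ⟨f, hf, rfl⟩ := exists_cls_rd b hC y
    choose g hg hgw using fun l => exists_cls_rd b hC (w l)
    have hg1 : ∀ l, HK p (k + dd p n m) (φ.x l * g l) := fun l => by
      have := (φ.x_deg l).mul (hg l)
      rwa [add_sub_cancel] at this
    have hf1 : HK p (k + dd p n m) (φ.x m * f) := by
      have := (φ.x_deg m).mul hf
      rwa [add_comm] at this
    have h1 : b.cls (k + dd p n m) (φ.x m * f - ∑ l ∈ Finset.range m, φ.x l * g l) ≫ rd i P = 0 := by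
      have h2 : b.cls (k + dd p n m) (φ.x m * f - ∑ l ∈ Finset.range m, φ.x l * g l) +
          b.cls (k + dd p n m) (∑ l ∈ Finset.range m, φ.x l * g l) =
            b.cls (k + dd p n m) (φ.x m * f) := by
        rw [← cls_add b (hk_sub p hf1 (hk_sum p _ _ fun l _ => hg1 l))
          (hk_sum p _ _ fun l _ => hg1 l), sub_add_cancel]
      rw [eq_sub_of_add_eq h2, Preadditive.sub_comp, sub_eq_zero, ← xh_cls φ hS m rfl hf, e,
        cls_sum b _ _ fun l _ => hg1 l, Preadditive.sum_comp]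
      refine Finset.sum_congr rfl fun l _ => ?_
      rw [hgw l]
      exact xh_cls φ hS l _ (hg l)
    have h2 := red_of_cls_rd b hC (hk_sub p hf1 (hk_sum p _ _ fun l _ => hg1 l)) h1
    rw [map_sub, sub_eq_zero, map_mul, map_sum] at h2
    obtain ⟨h, e'⟩ := reg_red p φ.x_deg φ.x_mod m (red p f) (fun l => red p (g l)) (by
      rw [h2]
      exact Finset.sum_congr rfl fun l _ => map_mul _ _ _)
    obtain ⟨w', hw', f', hf', e''⟩ := exists_of_red p φ.x_deg hf m h e'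
    exact ⟨fun l => b.cls (k - dd p n l) (w' l) ≫ rd i P, sum_xh φ hS hw' hf' e'' hC⟩

include hS in
/-- **The lifting property of the quotient map of a form.** -/
theorem lifts_of_form (hPar : ∀ K : 𝒯, H395.PComplete p K →
      (∀ (j : ℤ) (f : (𝟙_ 𝒯)⟦2 * j⟧ ⟶ K), f = 0) → ∀ f : P ⟶ K, f = 0) : Lifts S φ.Q := by
  obtain ⟨C, i, δ, hC⟩ := distinguished_cocone_triangle ((p : ℤ) • 𝟙 (𝟙_ 𝒯))
  exact lifts (Fact.out : p.Prime).pos ⟨i, δ, hC⟩ S (khyp φ hS hC hPar)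

end Vale.Agent.P221.H903
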