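import Vale.Agent.P221.H903.E3

/-!
# P221, part (E3): uniqueness of extensions along `q : P ⟶ B`

* `Res.exists_fibre` : the fibre `L` of `q` and the lifting property of `Ψ 0 ⟶ L`;
* `KHyp.unique` : maps `B ⟶ Y` are determined by their restrictions to `P`;
* `KHyp.H1_B` : `H1 x B`.
-/

open CategoryTheory MonoidalCategory Limits Pretriangulated
open Vale.Agent.P251.T Vale.Agent.P251.S Vale.Agent.P221.H395 Vale.Agent.P221.T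

set_option linter.unusedSectionVars false

universe v u

namespace Vale.Agent.P221.H903

section

variable {T : Type u} [Category.{v} T] [Preadditive T] [HasZeroObject T]
    [HasShift T ℤ] [∀ n : ℤ, (shiftFunctor T n).Additive] [Pretriangulated T] [IsTriangulated T]
    [MonoidalCategory T] [SymmetricCategory T] [TensorTriangulated T] [MonoidalClosed T]
    [HasCoproducts.{0} T] [HasProducts.{0} T] [StableCat T]

variable {C : T} {p : ℕ} {F B : T}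

/-- the fibre of `q` -/
structure Res.Fib (R : Res p C F B) where
  /-- the fibre -/
  L : T
  /-- the inclusion -/
  u : L ⟶ F
  /-- the boundary -/
  δ : B ⟶ L⟦(1 : ℤ)⟧
  /-- the cover -/
  κ : R.Ψ 0 ⟶ L
  /-- the cofibre of the cover -/
  L1 : T
  /-- the map to the cofibre -/
  j : L ⟶ L1
  /-- the boundary -/
  δ1 : L1 ⟶ (R.Ψ 0)⟦(1 : ℤ)⟧
  tri : Triangle.mk u R.q δ ∈ distTriang T
  tri1 : Triangle.mk κ j δ1 ∈ distTriang T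
  hκ : κ ≫ u = R.d0
  pL : PComplete p L
  cL : Conc C 0 L
  pL1 : PComplete p L1
  cL1 : Conc C 1 L1
  zero : ∀ {Y : T}, PComplete p Y → (∀ (n : ℕ) (ψ : R.Ψ (n + 1) ⟶ Y),
    R.d (n + 1) ≫ ψ⟦(1 : ℤ)⟧' = 0 → ∃ φ : (R.Ψ n)⟦(1 : ℤ)⟧ ⟶ Y, R.d n ≫ φ = ψ) →
    ∀ x : L ⟶ Y, κ ≫ x = 0 → x = 0

theorem Res.exists_fib (R : Res p C F B) (hC : ∃ (i : 𝟙_ T ⟶ C) (δ : C ⟶ (𝟙_ T)⟦(1 : ℤ)⟧),
      Triangle.mk ((p : ℤ) • 𝟙 (𝟙_ T)) i δ ∈ distTriang T)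
    (hcpt : ∀ k : ℤ, IsCpt ((𝟙_ T)⟦k⟧)) : Nonempty R.Fib := by
  obtain ⟨i, δC, hC⟩ := hC
  obtain ⟨S, j, δ, h0, hS⟩ := R.exists_stages
  refine ⟨⟨(S 0).L, (S 0).u, δ, (S 0).κ, (S 1).L, j 0, (S 1).u, h0, hS 0, (S 0).hκ, (S 0).pc,
    (S 0).conc, (S 1).pc, (S 1).conc, ?_⟩⟩
  intro Y hY van y hy
  -- the compatible family
  have step : ∀ (n : ℕ) (x : {x : (S n).L ⟶ Y // (S n).κ ≫ x = 0}),
      ∃ x' : {x' : (S (n + 1)).L ⟶ Y // (S (n + 1)).κ ≫ x' = 0}, j n ≫ x'.1 = x.1 := by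
    rintro n ⟨x, hx⟩
    obtain ⟨β, hβ⟩ : ∃ β : (S (n + 1)).L ⟶ Y, x = j n ≫ β :=
      Triangle.yoneda_exact₂ _ (hS n) x hx
    obtain ⟨φ, hφ⟩ := van n ((S (n + 1)).κ ≫ β) (by
      rw [Functor.map_comp, reassoc_of% (S (n + 1)).nul, zero_comp])
    obtain ⟨u, hju, h1⟩ : ∃ u : (S (n + 1)).L ⟶ (R.Ψ n)⟦(1 : ℤ)⟧, j n ≫ u = 0 ∧
        (S (n + 1)).κ ≫ u = R.d n :=
      ⟨(S (n + 1)).u, comp_distTriang_mor_zero₂₃ _ (hS n), (S (n + 1)).hκ⟩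
    refine ⟨⟨β - u ≫ φ, ?_⟩, ?_⟩
    · rw [Preadditive.comp_sub, reassoc_of% h1, hφ, sub_self]
    · change j n ≫ (β - u ≫ φ) = x
      rw [Preadditive.comp_sub, reassoc_of% hju, zero_comp, sub_zero, hβ]
  choose nx hnx using step
  let x : ∀ n, {x : (S n).L ⟶ Y // (S n).κ ≫ x = 0} :=
    fun n => Nat.rec ⟨y, hy⟩ (fun n x => nx n x) n
  have hx : ∀ n, j n ≫ (x (n + 1)).1 = (x n).1 := fun n => hnx n (x n)
  -- the telescope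
  obtain ⟨U⟩ := exists_tel (X := fun n => (S n).L) j
  obtain ⟨l, hl⟩ := U.exists_desc (Z := Y) (fun n => (x n).1) hx
  have hU : IsZero (U.obj ⊗ C) := by
    refine StableCat.generator _ fun k f => ?_
    obtain ⟨n, b, hb⟩ := (U.tensR C).exists_factor (hcpt k) f
    change (𝟙_ T)⟦k⟧ ⟶ (S n).L ⊗ C at b
    change b ≫ U.ι n ▷ C = f at hb
    obtain ⟨z, hz⟩ := (S n).onto k b
    have h1 : j n ≫ U.ι (n + 1) = U.ι n := U.w n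
    have h3 : (S n).κ ▷ C ≫ U.ι n ▷ C = 0 := by
      rw [← h1, comp_whiskerRight, ← Category.assoc, comp_zero₁₂ (hS n) C, zero_comp]
    rw [← hb, ← hz, Category.assoc, h3, comp_zero]
  have hl0 : l = 0 := hY _ ((isIso_p_iff hC _).2 hU) l
  have := hl 0
  rw [hl0, comp_zero] at this
  exact this.symm

end

variable {𝒯 : Type u} [Category.{0} 𝒯] [Preadditive 𝒯] [HasZeroObject 𝒯]
    [HasShift 𝒯 ℤ] [∀ n : ℤ, (shiftFunctor 𝒯 n).Additive] [Pretriangulated 𝒯] [IsTriangulated 𝒯]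
    [MonoidalCategory 𝒯] [SymmetricCategory 𝒯] [TensorTriangulated 𝒯] [MonoidalClosed 𝒯]
    [HasCoproducts.{0} 𝒯] [HasProducts.{0} 𝒯] [StableCat 𝒯]

variable {p : ℕ} {C P B : 𝒯} {d : ℕ → ℤ}

/-- all maps `P⟦k⟧ ⟶ Y`, `k` odd, are zero -/
def Odd0 (P Y : 𝒯) : Prop := ∀ k : ℤ, Odd k → ∀ f : P⟦k⟧ ⟶ Y, f = 0

/-- the Koszul resolution of `B` -/
structure KRes {x : ∀ l, P⟦d l⟧ ⟶ P} {q : P ⟶ B} (H : KHyp p C x q) where
  /-- the resolution -/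
  R : Res p C P B
  hq : R.q = q
  /-- the free objects -/
  𝔽 : ∀ n, FreeOn p C P d (sN n) (n + 1) (R.Ψ n)
  k0 : IsKos x (n := 0) (c := 0) (𝔽 0) (freeOn_self H.pP) R.d0
  kS : ∀ n, IsKos x (𝔽 (n + 1)) (𝔽 n).shift (R.d n)

theorem KHyp.exists_kres {x : ∀ l, P⟦d l⟧ ⟶ P} {q : P ⟶ B} (H : KHyp p C x q)
    (hC : ∃ (i : 𝟙_ 𝒯 ⟶ C) (δ : C ⟶ (𝟙_ 𝒯)⟦(1 : ℤ)⟧),
      Triangle.mk ((p : ℤ) • 𝟙 (𝟙_ 𝒯)) i δ ∈ distTriang 𝒯) : Nonempty (KRes H) := by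
  choose Z hZ using fun n : ℕ => exists_freeOn hC P d (sN n) (n + 1)
  have 𝔽 : ∀ n, FreeOn p C P d (sN n) (n + 1) (Z n) := fun n => (hZ n).some
  obtain ⟨D₀, hD₀⟩ : ∃ D₀ : Z 0 ⟶ P, IsKos x (n := 0) (c := 0) (𝔽 0) (freeOn_self H.pP) D₀ :=
    exists_kos x _ _
  choose D hD using fun n => exists_kos x (𝔽 (n + 1)) (𝔽 n).shift
  exact ⟨{
    R :=
    { q := q
      Ψ := Z
      d0 := D₀
      d := D
      d0_q := H.comp_q hD₀ H.pB q H.x_q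
      d_d0 := (hD 0).comp_zero H.comm hD₀.shift
      d_d := fun n => (hD (n + 1)).comp_zero H.comm (hD n).shift
      pF := H.pP
      pB := H.pB
      pΨ := fun n => (𝔽 n).pc
      cF := H.cP
      cB := H.cB
      cΨ := fun n => by
        have := (𝔽 n).conc H.even H.cP
        rwa [sN_eq] at this
      par := fun n K hK hc f => (𝔽 (n + 1)).par H.even H.par hK (s := n) (by
        rw [sN_eq]
        exact ⟨-1, by push_cast; ring⟩) hc f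
      ex_q := H.onto
      ex_F := H.exact_zero hD₀
      ex_0 := H.exact (hD 0) hD₀.shift
      ex := fun n => H.exact (hD (n + 1)) (hD n).shift }
    hq := rfl
    𝔽 := 𝔽
    k0 := hD₀
    kS := hD }⟩

/-- `H1` for the desuspension -/
theorem H1.desusp {x : ∀ l, P⟦d l⟧ ⟶ P} {Y : 𝒯} (h : H1 x Y) : H1 x (Y⟦(-1 : ℤ)⟧) := by
  intro m c hc ψ hψ
  let ε : (Y⟦(-1 : ℤ)⟧)⟦(1 : ℤ)⟧ ≅ Y := (shiftFunctorCompIsoId 𝒯 (-1 : ℤ) 1 (by simp)).app Y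
  have εinj : ∀ {A : 𝒯} {e e' : ℤ} (h : 1 + e = e') {w w' : A⟦e⟧ ⟶ Y⟦(-1 : ℤ)⟧},
      gc h w ε.hom = gc h w' ε.hom → w = w' := by
    intro A e e' h w w' hw
    rw [gc_eq, gc_eq h w'] at hw
    exact gc_inj h ((cancel_mono ε.hom).1 hw)
  obtain ⟨φ, hφ⟩ := h m (1 + c) (by omega)
    (fun l => gc (show 1 + (c + d l) = 1 + c + d l by ring) (ψ l) ε.hom)
    (fun i hi l hl k' h h' => by
      rw [gc_assoc (x i) (ψ l) ε.hom _ h (show c + d l + d i = k' - 1 by omega)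
          (show 1 + (k' - 1) = k' by ring),
        gc_assoc (x l) (ψ i) ε.hom _ h' (show c + d i + d l = k' - 1 by omega)
          (show 1 + (k' - 1) = k' by ring), hψ i hi l hl (k' - 1) (by omega) (by omega)])
  obtain ⟨w, hw⟩ := gc_surj (show 1 + c = 1 + c from rfl) (φ ≫ ε.inv)
  have hw' : gc (show 1 + c = 1 + c from rfl) w ε.hom = φ := by
    rw [gc_eq, hw, Category.assoc, Iso.inv_hom_id, Category.comp_id]
  refine ⟨w, fun l hl => εinj (show 1 + (c + d l) = 1 + c + d l by ring) ?_⟩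
  rw [← hφ l hl, ← hw']
  exact (gc_assoc (x l) w ε.hom rfl rfl rfl _).symm

/-- **Maps `B ⟶ Y` are determined by their restrictions to `P`.** -/
theorem KHyp.unique {x : ∀ l, P⟦d l⟧ ⟶ P} {q : P ⟶ B} (H : KHyp p C x q)
    (hC : ∃ (i : 𝟙_ 𝒯 ⟶ C) (δ : C ⟶ (𝟙_ 𝒯)⟦(1 : ℤ)⟧),
      Triangle.mk ((p : ℤ) • 𝟙 (𝟙_ 𝒯)) i δ ∈ distTriang 𝒯) {Y : 𝒯} (hY : PComplete p Y)
    (h1 : H1 x Y) (h0 : Odd0 P Y) (β : B ⟶ Y) (hβ : q ≫ β = 0) : β = 0 := by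
  obtain ⟨K⟩ := H.exists_kres hC
  obtain ⟨Φ⟩ := K.R.exists_fib hC (fun k I X f => compact_sum X ⟨k, ⟨Iso.refl _⟩⟩ f)
  let ε : (Y⟦(-1 : ℤ)⟧)⟦(1 : ℤ)⟧ ≅ Y := (shiftFunctorCompIsoId 𝒯 (-1 : ℤ) 1 (by simp)).app Y
  obtain ⟨g, hg⟩ : ∃ g : Φ.L⟦(1 : ℤ)⟧ ⟶ Y, β = Φ.δ ≫ g :=
    Triangle.yoneda_exact₃ _ Φ.tri β (by
      change K.R.q ≫ β = 0
      rw [K.hq, hβ])
  obtain ⟨h, hh⟩ := (shiftFunctor 𝒯 (1 : ℤ)).map_surjective (g ≫ ε.inv)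
  have hg0 : h = 0 := by
    refine Φ.zero (hY.shift (-1)) (fun n ψ hψ => exists_lift H.nonneg (sN_nonneg n) H.comm
      (K.kS (n + 1)) (K.kS n) (hY.shift (-1)) h1.desusp ψ hψ) h ?_
    refine (K.𝔽 0).uniq (hY.shift (-1)) _ fun J _ => ?_
    have h2 : gc (show 1 + (dI d J + sN 0) = dI d J + 1 by
        change 1 + (dI d J + 0) = dI d J + 1
        ring) ((K.𝔽 0).ι J ≫ Φ.κ ≫ h) ε.hom = 0 :=
      h0 _ ((dI_even H.even J).add_one) _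
    rw [gc_eq] at h2
    have h3 := (cancel_mono ε.hom).1 (h2.trans zero_comp.symm)
    refine gc_inj (show 1 + (dI d J + sN 0) = dI d J + 1 by
        change 1 + (dI d J + 0) = dI d J + 1
        ring) ?_
    rw [h3, gc_zero_left]
  have h3 : g = 0 := by
    rw [← cancel_mono ε.inv, ← hh, hg0, Functor.map_zero, zero_comp]
  rw [hg, h3, comp_zero]

/-- **The first Koszul cohomology of `[P⟦k⟧, B]` vanishes.** -/
theorem KHyp.H1_B {x : ∀ l, P⟦d l⟧ ⟶ P} {q : P ⟶ B} (H : KHyp p C x q)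
    (hC : ∃ (i : 𝟙_ 𝒯 ⟶ C) (δ : C ⟶ (𝟙_ 𝒯)⟦(1 : ℤ)⟧),
      Triangle.mk ((p : ℤ) • 𝟙 (𝟙_ 𝒯)) i δ ∈ distTriang 𝒯) (hP : H1P p C x H.pP) :
    H1 x B := by
  obtain ⟨K⟩ := H.exists_kres hC
  obtain ⟨Φ⟩ := K.R.exists_fib hC (fun k I X f => compact_sum X ⟨k, ⟨Iso.refl _⟩⟩ f)
  have hodd : Odd0 P B := fun k hk f => eq_zero_of_par H.par H.pB H.cB (by
    rw [zero_sub]
    exact hk.neg) f
  intro m c hc ψ hψ
  rcases Int.even_or_odd c with hce | hco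
  · have e1 : ∀ l, Even (c + d l) := fun l => hce.add (H.even l)
    -- lifts to `P`
    have lift : ∀ {k : ℤ} (_ : Even k) (f : P⟦k⟧ ⟶ B), ∃ f' : P⟦k⟧ ⟶ P, f' ≫ q = f := by
      intro k hk f
      have h2 : f ≫ Φ.δ = 0 := eq_zero_of_par H.par (Φ.pL.shift 1) Φ.cL.shift (by
        rw [zero_add]
        exact odd_one.sub_even hk) _
      obtain ⟨g, hg⟩ : ∃ g : P⟦k⟧ ⟶ P, f = g ≫ K.R.q := Triangle.coyoneda_exact₃ _ Φ.tri f h2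
      exact ⟨g, by rw [hg, K.hq]⟩
    -- the kernel
    have ker : ∀ {k : ℤ} (_ : Even k) (f : P⟦k⟧ ⟶ P), f ≫ q = 0 →
        ∃ g : P⟦k⟧ ⟶ K.R.Ψ 0, g ≫ K.R.d0 = f := by
      intro k hk f hf
      obtain ⟨g, hg⟩ : ∃ g : P⟦k⟧ ⟶ Φ.L, f = g ≫ Φ.u := Triangle.coyoneda_exact₂ _ Φ.tri f (by
        change f ≫ K.R.q = 0
        rw [K.hq, hf])
      obtain ⟨g', hg'⟩ : ∃ g' : P⟦k⟧ ⟶ K.R.Ψ 0, g = g' ≫ Φ.κ :=
        Triangle.coyoneda_exact₂ _ Φ.tri1 g (eq_zero_of_par H.par Φ.pL1 Φ.cL1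
          (odd_one.sub_even hk) _)
      exact ⟨g', by rw [hg, hg', Category.assoc, Φ.hκ]⟩
    choose ψ' hψ' using fun l => lift (e1 l) (ψ l)
    obtain ⟨φ, hφ⟩ := hP (K.R.Ψ 0) (K.𝔽 0) K.R.d0 K.k0 m c hc ψ' (fun i hi l hl k' h h' => by
      refine ker (by
        rw [← h]
        exact (e1 l).add (H.even i)) _ ?_
      rw [Preadditive.sub_comp, ← gc_comp, ← gc_comp, hψ', hψ', hψ i hi l hl k' h h', sub_self])
    refine ⟨φ ≫ q, fun l hl => ?_⟩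
    obtain ⟨f, hf⟩ := hφ l hl
    have h3 : K.R.d0 ≫ q = 0 := by
      have h4 := K.R.d0_q
      rwa [K.hq] at h4
    rw [gc_comp, ← sub_eq_zero, ← hψ' l, ← Preadditive.sub_comp, ← hf, Category.assoc, h3,
      comp_zero]
  · refine ⟨0, fun l _ => ?_⟩
    rw [gc_zero_right]
    exact (hodd _ (hco.add_even (H.even l)) _).symm

theorem KHyp.odd0 {x : ∀ l, P⟦d l⟧ ⟶ P} {q : P ⟶ B} (H : KHyp p C x q) : Odd0 P B :=
  fun k hk f => eq_zero_of_par H.par H.pB H.cB (by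
    rw [zero_sub]
    exact hk.neg) f

end Vale.Agent.P221.H903
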