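import Vale.Agent.P221.H903.K7

/-!
# P221, part (E3): existence of forms, interfaces

* `PHyp p C x` : the part of `KHyp` on `P`;
* `HomEx p C x` : exactness of the maps from `P⟦k⟧` to the Koszul complex;
* `H1P p C x` : the first Koszul cohomology of initial segments vanishes for the cokernel of
  `[P⟦k⟧, F_1] ⟶ [P⟦k⟧, P]`, `k ≥ 0`;
* `H1 x Y` : the same for `[P⟦k⟧, Y]`.
-/

open CategoryTheory MonoidalCategory Limits Pretriangulated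
open Vale.Agent.P251.T Vale.Agent.P251.S Vale.Agent.P221.H395 Vale.Agent.P221.T

set_option linter.unusedSectionVars false

universe v u

namespace Vale.Agent.P221.H903

variable {𝒯 : Type u} [Category.{0} 𝒯] [Preadditive 𝒯] [HasZeroObject 𝒯]
    [HasShift 𝒯 ℤ] [∀ n : ℤ, (shiftFunctor 𝒯 n).Additive] [Pretriangulated 𝒯] [IsTriangulated 𝒯]
    [MonoidalCategory 𝒯] [SymmetricCategory 𝒯] [TensorTriangulated 𝒯] [MonoidalClosed 𝒯]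
    [HasCoproducts.{0} 𝒯] [HasProducts.{0} 𝒯] [StableCat 𝒯]

variable {P : 𝒯} {d : ℕ → ℤ}

/-- the hypotheses on `P` and the sequence `x` -/
structure PHyp (p : ℕ) (C : 𝒯) (x : ∀ l, P⟦d l⟧ ⟶ P) : Prop where
  pP : PComplete p P
  comm : XComm x
  even : ∀ l, Even (d l)
  nonneg : ∀ l, 0 ≤ d l
  cP : Conc C 0 P
  par : ∀ K, PComplete p K → Conc C 1 K → ∀ f : P ⟶ K, f = 0
  reg : ∀ (m : ℕ) (k : ℤ) (y : HH C P k) (w : ∀ l, HH C P (k + d m - d l)),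
    xh x C m rfl y = ∑ l ∈ Finset.range m, xh x C l (sub_add_cancel (k + d m) (d l)) (w l) →
    ∃ w' : ∀ l, HH C P (k - d l),
      y = ∑ l ∈ Finset.range m, xh x C l (sub_add_cancel k (d l)) (w' l)

/-- (E3-1) exactness of the maps from `P⟦k⟧` to the Koszul complex -/
def HomEx (p : ℕ) (C : 𝒯) (x : ∀ l, P⟦d l⟧ ⟶ P) : Prop :=
  ∀ (n : ℤ) (c : ℕ) (Z W V : 𝒯) (𝔽 : FreeOn p C P d n (c + 1 + 1) Z)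
    (𝔾 : FreeOn p C P d n (c + 1) W) (𝔼 : FreeOn p C P d n c V) (D : Z ⟶ W) (D' : W ⟶ V),
    IsKos x 𝔽 𝔾 D → IsKos x 𝔾 𝔼 D' →
    ∀ (k : ℤ) (f : P⟦k⟧ ⟶ W), f ≫ D' = 0 → ∃ g : P⟦k⟧ ⟶ Z, g ≫ D = f

/-- (E3-2) the first Koszul cohomology of the initial segments vanishes for the cokernel of
`[P⟦k⟧, F_1] ⟶ [P⟦k⟧, P]`, `k ≥ 0` -/
def H1P (p : ℕ) (C : 𝒯) (x : ∀ l, P⟦d l⟧ ⟶ P) (hP : PComplete p P) : Prop :=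
  ∀ (Z : 𝒯) (𝔽 : FreeOn p C P d 0 (0 + 1) Z) (D : Z ⟶ P), IsKos x 𝔽 (freeOn_self hP) D →
    ∀ (m : ℕ) (c : ℤ), 0 ≤ c → ∀ ψ : ∀ l, P⟦c + d l⟧ ⟶ P,
      (∀ i < m, ∀ l < m, ∀ (k' : ℤ) (h : c + d l + d i = k') (h' : c + d i + d l = k'),
        ∃ f : P⟦k'⟧ ⟶ Z, f ≫ D = gc h (x i) (ψ l) - gc h' (x l) (ψ i)) →
      ∃ φ : P⟦c⟧ ⟶ P, ∀ l < m, ∃ f : P⟦c + d l⟧ ⟶ Z, f ≫ D = gc rfl (x l) φ - ψ l

/-- the first Koszul cohomology of the initial segments vanishes for `[P⟦k⟧, Y]`, `k ≥ 0` -/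
def H1 (x : ∀ l, P⟦d l⟧ ⟶ P) (Y : 𝒯) : Prop :=
  ∀ (m : ℕ) (c : ℤ), 0 ≤ c → ∀ ψ : ∀ l, P⟦c + d l⟧ ⟶ Y,
    (∀ i < m, ∀ l < m, ∀ (k' : ℤ) (h : c + d l + d i = k') (h' : c + d i + d l = k'),
      gc h (x i) (ψ l) = gc h' (x l) (ψ i)) →
    ∃ φ : P⟦c⟧ ⟶ Y, ∀ l < m, gc rfl (x l) φ = ψ l

/-- (E3-3) the spectrum -/
def SpecTow (p : ℕ) (C : 𝒯) : Prop :=
  (∃ (i : 𝟙_ 𝒯 ⟶ C) (δ : C ⟶ (𝟙_ 𝒯)⟦(1 : ℤ)⟧),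
      Triangle.mk ((p : ℤ) • 𝟙 (𝟙_ 𝒯)) i δ ∈ distTriang 𝒯) →
  ∀ (P : 𝒯) (d : ℕ → ℤ) (x : ∀ l, P⟦d l⟧ ⟶ P) (H : PHyp p C x), HomEx p C x →
    H1P p C x H.pP → ∃ (B : 𝒯) (q : P ⟶ B), KHyp p C x q

end Vale.Agent.P221.H903
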