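import Mathlib.Algebra.MvPolynomial.Supported
import Mathlib.RingTheory.MvPolynomial.WeightedHomogeneous
import Mathlib.Tactic

/-!
# P221, block B2: triangular endomorphisms of polynomial rings (arbitrary index type with weights)

`θ (X i) = c_i X_i + s_i` with `s_i` a polynomial in the variables of smaller weight.
-/

namespace Vale.Agent.P221.H903

open MvPolynomial

variable {k : Type*} [CommRing k] {σ : Type*} (wt : σ → ℕ)

/-- the polynomials in the variables of weight `< w`. -/
noncomputable def low (k : Type*) [CommRing k] (w : ℕ) : Subalgebra k (MvPolynomial σ k) :=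
  supported k {i | wt i < w}

variable {wt}

theorem X_mem_low {i : σ} {w : ℕ} (h : wt i < w) : (X i : MvPolynomial σ k) ∈ low wt k w :=
  Algebra.subset_adjoin ⟨i, h, rfl⟩

theorem C_mem_low (a : k) (w : ℕ) : (C a : MvPolynomial σ k) ∈ low wt k w :=
  (low wt k w).algebraMap_mem a

theorem low_mono {m n : ℕ} (h : m ≤ n) : low wt k m ≤ low wt k n :=
  supported_mono fun _ hi => lt_of_lt_of_le hi h

theorem aeval_congr_low {A : Type*} [CommRing A] [Algebra k A] {f g : σ → A} {w : ℕ}
    (h : ∀ i, wt i < w → f i = g i) {s : MvPolynomial σ k} (hs : s ∈ low wt k w) :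
    aeval f s = aeval g s := by
  refine eval₂Hom_congr' rfl ?_ rfl
  intro i hi _
  exact h i ((mem_supported.1 hs) hi)

/-- an algebra homomorphism maps `low w` into a subalgebra containing the images of the
variables. -/
theorem map_low_mem {A : Type*} [CommRing A] [Algebra k A] {f : σ → A} {w : ℕ}
    {D : Subalgebra k A} (h : ∀ i, wt i < w → f i ∈ D) {s : MvPolynomial σ k}
    (hs : s ∈ low wt k w) : aeval f s ∈ D := by
  induction hs using Algebra.adjoin_induction with
  | mem x hx =>
    obtain ⟨i, hi, rfl⟩ := hx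
    rw [aeval_X]
    exact h i hi
  | algebraMap r =>
    rw [algebraMap_eq, aeval_C]
    exact D.algebraMap_mem _
  | add x y _ _ h1 h2 => rw [map_add]; exact D.add_mem h1 h2
  | mul x y _ _ h1 h2 => rw [map_mul]; exact D.mul_mem h1 h2

section Inverse

variable (wt) (u : σ → k) (s : σ → MvPolynomial σ k)

open Classical in
/-- the inverse of the triangular endomorphism `X_i ↦ u_i⁻¹ X_i + s_i`. -/
noncomputable def triInv : σ → MvPolynomial σ k
  | n => C (u n) * (X n - aeval (fun i => if _h : wt i < wt n then triInv i else 0) (s n))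
termination_by n => wt n
decreasing_by assumption

theorem triInv_eq (hs : ∀ n, s n ∈ low wt k (wt n)) (n : σ) :
    triInv wt u s n = C (u n) * (X n - aeval (triInv wt u s) (s n)) := by
  rw [triInv, aeval_congr_low (f := fun i => if h : wt i < wt n then triInv wt u s i else 0)
    (g := triInv wt u s) (fun i hi => dif_pos hi) (hs n)]

theorem triInv_comp (hs : ∀ n, s n ∈ low wt k (wt n)) {c : σ → k} (hc : ∀ n, u n * c n = 1)
    {θ : MvPolynomial σ k →ₐ[k] MvPolynomial σ k} (hθ : ∀ n, θ (X n) = C (c n) * X n + s n)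
    (x : MvPolynomial σ k) : aeval (triInv wt u s) (θ x) = x := by
  have : (aeval (triInv wt u s)).comp θ = AlgHom.id k _ := by
    apply MvPolynomial.algHom_ext
    intro n
    rw [AlgHom.comp_apply, hθ, map_add, map_mul, aeval_X, aeval_C, AlgHom.id_apply,
      triInv_eq wt u s hs, algebraMap_eq, ← mul_assoc, ← C_mul, mul_comm (c n), hc, C_1, one_mul]
    ring
  exact congrArg (fun f => f x) this

theorem triInv_mem (hs : ∀ n, s n ∈ low wt k (wt n)) (n : σ) :
    triInv wt u s n ∈ low wt k (wt n + 1) := by
  induction h : wt n using Nat.strong_induction_on generalizing n with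
  | _ w ih =>
    subst h
    rw [triInv_eq wt u s hs]
    refine Subalgebra.mul_mem _ (Subalgebra.algebraMap_mem _ _) (Subalgebra.sub_mem _
      (X_mem_low (Nat.lt_succ_self _)) ?_)
    exact map_low_mem (fun i hi => low_mono (Nat.succ_le_succ (le_of_lt hi)) (ih _ hi i rfl))
      (hs n)

end Inverse

/-- A triangular endomorphism with unit diagonal coefficients is bijective. -/
theorem bijective_of_tri {θ : MvPolynomial σ k →ₐ[k] MvPolynomial σ k} {c : σ → k}
    (hc : ∀ n, IsUnit (c n)) {s : σ → MvPolynomial σ k} (hs : ∀ n, s n ∈ low wt k (wt n))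
    (hθ : ∀ n, θ (X n) = C (c n) * X n + s n) : Function.Bijective θ := by
  choose u' hu' using hc
  set u : σ → k := fun n => ((u' n)⁻¹ : kˣ) with hu
  have huc : ∀ n, u n * c n = 1 := fun n => by rw [hu, ← hu' n]; exact Units.inv_mul _
  have h1 := triInv_comp wt u s hs huc hθ
  set ψ : MvPolynomial σ k →ₐ[k] MvPolynomial σ k := aeval (triInv wt u s) with hψ
  set s' : σ → MvPolynomial σ k := fun n => -(C (u n) * ψ (s n)) with hs'
  have hmem : ∀ n, ψ (s n) ∈ low wt k (wt n) := fun n =>
    map_low_mem (fun i hi => low_mono (Nat.succ_le_of_lt hi) (triInv_mem wt u s hs i)) (hs n)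
  have h2 := triInv_comp wt c s' (fun n => Subalgebra.neg_mem _ (Subalgebra.mul_mem _
    (Subalgebra.algebraMap_mem _ _) (hmem n))) (c := u) (fun n => by rw [mul_comm]; exact huc n)
    (θ := ψ) (fun n => by rw [hψ, aeval_X, triInv_eq wt u s hs, hs']; ring)
  have hinj : Function.Injective ψ := fun x y hxy => by rw [← h2 x, ← h2 y, hxy]
  refine ⟨fun x y hxy => by rw [← h1 x, ← h1 y, hxy], fun y => ⟨ψ y, hinj ?_⟩⟩
  rw [h1]

/-! ### homogeneous polynomials -/

/-- A homogeneous polynomial whose weight is that of the variable `i`, not involving linearly any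
other variable of this weight, is `c X_i` plus a polynomial in variables of smaller weight. -/
theorem sub_C_mul_X_mem_low (hw : ∀ i, 0 < wt i) {f : MvPolynomial σ k} {i : σ}
    (hf : IsWeightedHomogeneous wt f (wt i))
    (h0 : ∀ j, j ≠ i → wt j = wt i → coeff (Finsupp.single j 1) f = 0) :
    f - C (coeff (Finsupp.single i 1) f) * X i ∈ low wt k (wt i) := by
  classical
  rw [low, mem_supported]
  intro j hj
  obtain ⟨d, hd, hdj⟩ := (mem_vars_iff_mem_support j).1 hj
  rw [mem_support_iff, coeff_sub, C_mul_X_eq_monomial, coeff_monomial] at hd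
  rw [Set.mem_ofPred_eq]
  by_contra hlt
  rw [not_lt] at hlt
  by_cases hdi : Finsupp.single i 1 = d
  · rw [if_pos hdi, hdi, sub_self] at hd
    exact hd rfl
  rw [if_neg hdi, sub_zero] at hd
  have hwd : Finsupp.weight wt d = wt i := hf hd
  have hdj0 : d j ≠ 0 := Finsupp.mem_support_iff.1 hdj
  -- split off one copy of `j`
  have hle : Finsupp.single j 1 ≤ d := by
    rw [Finsupp.single_le_iff]
    exact Nat.one_le_iff_ne_zero.2 hdj0
  obtain ⟨e, he⟩ := exists_add_of_le hle
  have hwe : Finsupp.weight wt d = wt j + Finsupp.weight wt e := by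
    rw [he, map_add, Finsupp.weight_single, one_smul]
  have he0 : Finsupp.weight wt e = 0 := by omega
  have hji : wt j = wt i := by omega
  have hez : e = 0 := by
    ext l
    by_contra hl
    have h3 : Finsupp.single l 1 ≤ e := by
      rw [Finsupp.single_le_iff]
      exact Nat.one_le_iff_ne_zero.2 hl
    obtain ⟨e', he'⟩ := exists_add_of_le h3
    rw [he', map_add, Finsupp.weight_single, one_smul] at he0
    have := hw l
    omega
  rw [hez, add_zero] at he
  subst he
  by_cases hji' : j = i
  · exact hdi (by rw [hji'])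
  · exact hd (h0 j hji' hji)

/-! ### the kernel of a homomorphism which is bijective on a part of the variables -/

/-- Let `χ : k[τ] → k[σ]` be injective on the subring of the variables in the range of `ψ : σ → τ`
and kill `ρ t = c_t X_t + (variables of smaller weight)`, `c_t` a unit, for the other variables
`t ∈ J`. Then the kernel of `χ` is generated by the `ρ t`. -/
theorem ker_eq_span_of_tri {τ : Type*} {wt' : τ → ℕ} {χ : MvPolynomial τ k →ₐ[k] MvPolynomial σ k}
    {ψ : σ → τ} {J : Set τ} {ρ : τ → MvPolynomial τ k}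
    (hcov : ∀ t, t ∈ Set.range ψ ∨ t ∈ J)
    (hρ : ∀ t ∈ J, ∃ c : k, IsUnit c ∧ ρ t - C c * X t ∈ low wt' k (wt' t))
    (hχ : ∀ t ∈ J, χ (ρ t) = 0) (hinj : Function.Injective fun x => χ (rename ψ x)) :
    RingHom.ker χ = Ideal.span (ρ '' J) := by
  set K : Ideal (MvPolynomial τ k) := Ideal.span (ρ '' J) with hK
  have hKle : K ≤ RingHom.ker χ := by
    rw [hK, Ideal.span_le]
    rintro _ ⟨t, ht, rfl⟩
    exact hχ t ht
  refine le_antisymm (fun x hx => ?_) hKle
  set D : Subalgebra k (MvPolynomial τ k ⧸ K) :=
    ((Ideal.Quotient.mkₐ k K).comp (rename ψ)).range with hD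
  have hX : ∀ (w : ℕ) (t : τ), wt' t = w → (Ideal.Quotient.mkₐ k K) (X t) ∈ D := by
    intro w
    induction w using Nat.strong_induction_on with
    | _ w ih =>
      intro t ht
      rcases hcov t with ⟨i, rfl⟩ | htJ
      · exact ⟨X i, by simp⟩
      · obtain ⟨c, ⟨c', rfl⟩, hc⟩ := hρ t htJ
        have h1 : (Ideal.Quotient.mkₐ k K) (ρ t - C (c' : k) * X t) ∈ D := by
          have h2 := map_low_mem (f := fun i => (Ideal.Quotient.mkₐ k K) (X i)) (D := D)
            (fun i hi => ih _ (ht ▸ hi) i rfl) hc
          have h3 : aeval (fun i => (Ideal.Quotient.mkₐ k K) (X i)) =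
              Ideal.Quotient.mkₐ k K := by
            apply MvPolynomial.algHom_ext
            intro i
            rw [aeval_X]
          rwa [h3] at h2
        have h4 : (Ideal.Quotient.mkₐ k K) (ρ t) = 0 :=
          Ideal.Quotient.eq_zero_iff_mem.2 (Ideal.subset_span ⟨t, htJ, rfl⟩)
        rw [map_sub, h4, zero_sub, map_mul, ← algebraMap_eq, AlgHom.commutes] at h1
        have h5 := D.mul_mem (D.algebraMap_mem ((c'⁻¹ : kˣ) : k)) (D.neg_mem h1)
        rw [neg_neg, ← mul_assoc, ← map_mul, Units.inv_mul, map_one, one_mul] at h5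
        exact h5
  have htop : ∀ y : MvPolynomial τ k, (Ideal.Quotient.mkₐ k K) y ∈ D := by
    intro y
    induction y using MvPolynomial.induction_on with
    | C a =>
      rw [← algebraMap_eq, AlgHom.commutes]
      exact D.algebraMap_mem a
    | add f g hf hg => rw [map_add]; exact D.add_mem hf hg
    | mul_X f i hf => rw [map_mul]; exact D.mul_mem hf (hX _ i rfl)
  obtain ⟨y, hy⟩ := htop x
  have h1 : rename ψ y - x ∈ K := by
    rw [← Ideal.Quotient.eq_zero_iff_mem, map_sub, sub_eq_zero]
    exact hy
  have h2 : χ (rename ψ y) = 0 := by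
    have := hKle h1
    rw [RingHom.mem_ker, map_sub] at this
    have hx' : χ x = 0 := hx
    rwa [hx', sub_zero] at this
  have h3 : y = 0 := hinj (by
    change χ (rename ψ y) = χ (rename ψ 0)
    rw [h2, map_zero, map_zero])
  rw [h3, map_zero, zero_sub] at h1
  exact neg_mem_iff.1 h1

end Vale.Agent.P221.H903
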