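import Vale.Agent.P251.F.KGen
import Vale.Agent.P221.DefsB
import Vale.Agent.P221.H903.Tri

/-!
# P221, block B1: triangular change of generators

`b1 : SpecB3 p n → SpecB1 p n`: for a form `P` the map `P.chg : k[T, Y_P] → k[v, b]` is bijective.
-/

namespace Vale.Agent.P221.H903

open MvPolynomial Vale.Agent.P217 Vale.Agent.P251.F

variable {p n : ℕ} [hp : Fact p.Prime]

/-- the weights of `k[v, b]` as natural numbers -/
def wN (p n : ℕ) : Fin n ⊕ ℕ → ℕ := Sum.elim (fun a => p ^ ((a : ℕ) + 1) - 1) fun m => m + 1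

/-- the polynomials without `b_m`, `m ≥ N` -/
noncomputable def lowB (p n : ℕ) [Fact p.Prime] (N : ℕ) : Subalgebra (ZMod p) (VB p n) :=
  supported (ZMod p) {i | ∀ m, i = Sum.inr m → m < N}

theorem coeff_of_mem_lowB {N : ℕ} {f : VB p n} (hf : f ∈ lowB p n N) {m : ℕ} (hm : N ≤ m) :
    coeff (Finsupp.single (Sum.inr m) 1) f = 0 := by
  by_contra h0
  have h1 : Sum.inr m ∈ f.vars := (mem_vars_iff_mem_support _).2 ⟨_, mem_support_iff.2 h0, by
    rw [Finsupp.mem_support_iff, Finsupp.single_eq_same]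
    exact one_ne_zero⟩
  have h2 := (mem_supported.1 hf) h1 m rfl
  omega

theorem incl_mem_lowB (N : ℕ) (x : MvPolynomial (Fin n) (ZMod p)) :
    (rename (Sum.inl : Fin n → Fin n ⊕ ℕ) x : VB p n) ∈ lowB p n N := by
  classical
  rw [lowB, mem_supported]
  intro i hi m hm
  subst hm
  have h1 := vars_rename (Sum.inl : Fin n → Fin n ⊕ ℕ) x hi
  rw [Finset.mem_image] at h1
  obtain ⟨a, -, ha⟩ := h1
  exact absurd ha (by simp)

/-- linear coefficients of the elements of an ideal generated by variables -/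
theorem coeff_single_of_mem_span {k σ : Type*} [CommRing k] {S : Set σ} {f : MvPolynomial σ k}
    (hf : f ∈ Ideal.span (X '' S : Set (MvPolynomial σ k))) {i : σ} (hi : i ∉ S) :
    coeff (Finsupp.single i 1) f = 0 := by
  classical
  by_contra h0
  rw [mem_ideal_span_X_image] at hf
  obtain ⟨j, hj, hji⟩ := hf _ (mem_support_iff.2 h0)
  rw [Finsupp.single_apply] at hji
  split_ifs at hji with h
  · exact hi (h ▸ hj)
  · exact hji rfl

theorem wVB_eq (i : Fin n ⊕ ℕ) : wVB p n i = (wN p n i : ℤ) := by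
  rcases i with a | m
  · change (p : ℤ) ^ ((a : ℕ) + 1) - 1 = ((p ^ ((a : ℕ) + 1) - 1 : ℕ) : ℤ)
    rw [Nat.cast_sub (Nat.one_le_pow _ _ hp.out.pos)]
    push_cast
    rfl
  · change (m : ℤ) + 1 = ((m + 1 : ℕ) : ℤ)
    push_cast
    rfl

theorem weight_wVB (d : Fin n ⊕ ℕ →₀ ℕ) :
    Finsupp.weight (wVB p n) d = (Finsupp.weight (wN p n) d : ℤ) := by
  rw [Finsupp.weight_apply, Finsupp.weight_apply, Finsupp.sum, Finsupp.sum, Nat.cast_sum]
  refine Finset.sum_congr rfl fun i _ => ?_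
  rw [wVB_eq]
  simp

theorem isWH_iff {f : VB p n} {w : ℕ} :
    IsWeightedHomogeneous (wVB p n) f (w : ℤ) ↔ IsWeightedHomogeneous (wN p n) f w := by
  constructor <;> intro h d hd
  · have := h hd
    rw [weight_wVB] at this
    exact_mod_cast this
  · rw [weight_wVB, h hd]

theorem wN_pos (i : Fin n ⊕ ℕ) : 0 < wN p n i := by
  rcases i with a | m
  · have := two_le_pow hp.out (k := (a : ℕ) + 1) (Nat.succ_ne_zero _)
    have h2 : wN p n (Sum.inl a) = p ^ ((a : ℕ) + 1) - 1 := rfl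
    rw [h2]
    omega
  · exact Nat.succ_pos m

/-- the leading term of `yF p F m` -/
theorem coeff_yF_F {m : ℕ} (hm : ¬ ∃ i, m + 2 = p ^ i) (P : Form p n) :
    coeff (Finsupp.single (Sum.inr m) 1) (yF p P.F m) = (dC (m + 2) : ZMod p) := by
  classical
  rw [yF_eq_xC _ hm]
  have hX : ∀ j < m, (X (Sum.inr j) : VB p n) ∈ lowB p n m := fun j hj => by
    refine Algebra.subset_adjoin ⟨Sum.inr j, fun j' hj' => ?_, rfl⟩
    cases hj'
    exact hj
  have h := xC_strictMk_smul_law (lowB p n m).toSubring P.G (fun d => by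
    rw [Form.G, Law.map_ps, MvPowerSeries.coeff_map]
    exact incl_mem_lowB m _) (fun m => (X (Sum.inr m) : VB p n)) m hX
  have h1 := coeff_of_mem_lowB (f := xC P.F m - dC (m + 2) • (X (Sum.inr m) : VB p n)) h le_rfl
  rw [coeff_sub, sub_eq_zero] at h1
  rw [h1, nsmul_eq_mul, ← map_natCast (C : ZMod p →+* VB p n), coeff_C_mul, coeff_X, if_pos rfl,
    mul_one]

theorem isUnit_dC {m : ℕ} (hm : ¬ ∃ i, m + 2 = p ^ i) : IsUnit (dC (m + 2) : ZMod p) := by
  by_cases h1 : IsPrimePow (m + 2)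
  · obtain ⟨q, l, hq, hl, hql⟩ := (isPrimePow_nat_iff _).1 h1
    rw [← hql, dC_pow hq hl.ne']
    apply isUnit_natCast_of_coprime (CharP.cast_eq_zero (ZMod p) p)
    rw [Nat.coprime_primes hq hp.out]
    rintro rfl
    exact hm ⟨l, hql.symm⟩
  · rw [dC_of_not h1, Nat.cast_one]
    exact isUnit_one

theorem vv_law (P : Form p n) (a : Fin n) : vv p ((a : ℕ) + 1) P.law = X a := by
  rw [← yF_pow_sub hp.out _ (Nat.succ_ne_zero _), P.yF_law, P.std]

/-- `v_i(F) = v_i` modulo `(v_1, …, v_{i-1})` -/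
theorem vv_F_sub_mem (P : Form p n) (a : Fin n) :
    vv p ((a : ℕ) + 1) P.F - X (Sum.inl a) ∈
      Ideal.span (X '' {i : Fin n ⊕ ℕ | ∃ b : Fin n, (b : ℕ) < a ∧ i = Sum.inl b} :
        Set (VB p n)) := by
  have h := vv_smul_sub_mem p ((a : ℕ) + 1) P.G
    (strictMk fun m => (X (Sum.inr m) : VB p n))
  have hG : ∀ b : Fin n, vv p ((b : ℕ) + 1) P.G = X (Sum.inl b) := fun b => by
    rw [Form.G, vv_map, vv_law]
    exact rename_X _ _
  rw [c_zero_strictMk, one_pow, mul_one, one_mul, hG] at h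
  refine (Ideal.span_le.2 ?_ : Ih p ((a : ℕ) + 1) P.G ≤ _) h
  rintro _ ⟨i, hi, rfl⟩
  rcases Nat.eq_zero_or_pos i with rfl | hi0
  · rw [vv_zero, cast_p_eq_zero]
    exact Ideal.zero_mem _
  · obtain ⟨i, rfl⟩ := Nat.exists_eq_succ_of_ne_zero hi0.ne'
    have hi' : i < a := by omega
    have h3 : vv p (i + 1) P.G = X (Sum.inl (⟨i, hi'.trans a.2⟩ : Fin n)) :=
      hG ⟨i, hi'.trans a.2⟩
    rw [Nat.succ_eq_add_one, h3]
    exact Ideal.subset_span ⟨Sum.inl ⟨i, hi'.trans a.2⟩, ⟨_, hi', rfl⟩, rfl⟩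

theorem coeff_vv_F (P : Form p n) (a : Fin n) (i : Fin n ⊕ ℕ)
    (hi : ∀ b : Fin n, (b : ℕ) < a → i ≠ Sum.inl b) :
    coeff (Finsupp.single i 1) (vv p ((a : ℕ) + 1) P.F) =
      coeff (Finsupp.single i 1) (X (Sum.inl a) : VB p n) := by
  have h := coeff_single_of_mem_span (vv_F_sub_mem P a) (i := i) (by
    rintro ⟨b, hb, rfl⟩
    exact hi b hb rfl)
  rwa [coeff_sub, sub_eq_zero] at h

open Classical in
/-- the new generators: `b_{p^i - 2}`, `yF p F m` for `m + 2` not a power of `p`, `v_i(F)`. -/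
noncomputable def newGen (P : Form p n) : Fin n ⊕ ℕ → VB p n :=
  Sum.elim (fun a => vv p ((a : ℕ) + 1) P.F)
    fun m => if ∃ i, m + 2 = p ^ i then X (Sum.inr m) else yF p P.F m

/-- **Triangular change of generators.** -/
theorem newGen_bijective (h3 : SpecB3 p n) (P : Form p n) :
    Function.Bijective (aeval (newGen P) : VB p n →ₐ[ZMod p] VB p n) := by
  classical
  have hF : ∀ m, IsWeightedHomogeneous (wN p n) (yF p P.F m) (m + 1) := fun m => by
    have := h3 P m
    rw [← isWH_iff]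
    push_cast
    exact this
  refine bijective_of_tri (wt := wN p n)
    (c := Sum.elim (fun _ => 1) (fun m => if ∃ i, m + 2 = p ^ i then 1 else
      (dC (m + 2) : ZMod p)))
    (s := fun i => newGen P i - C ((Sum.elim (fun _ => 1) (fun m => if ∃ i, m + 2 = p ^ i then 1
      else (dC (m + 2) : ZMod p)) : Fin n ⊕ ℕ → ZMod p) i) * X i) (fun i => ?_) (fun i => ?_)
    (fun i => ?_)
  · rcases i with a | m
    · exact isUnit_one
    · rw [Sum.elim_inr]
      split_ifs with h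
      · exact isUnit_one
      · exact isUnit_dC h
  · rcases i with a | m
    · rw [Sum.elim_inl, newGen, Sum.elim_inl]
      have h2 := two_le_pow hp.out (k := (a : ℕ) + 1) (Nat.succ_ne_zero _)
      have h3 : IsWeightedHomogeneous (wN p n) (vv p ((a : ℕ) + 1) P.F)
          (wN p n (Sum.inl a)) := by
        rw [← yF_pow_sub hp.out _ (Nat.succ_ne_zero (a : ℕ))]
        have := hF (p ^ ((a : ℕ) + 1) - 2)
        rwa [show p ^ ((a : ℕ) + 1) - 2 + 1 = wN p n (Sum.inl a) by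
          change _ = p ^ ((a : ℕ) + 1) - 1
          omega] at this
      have h4 : coeff (Finsupp.single (Sum.inl a) 1) (vv p ((a : ℕ) + 1) P.F) =
          (1 : ZMod p) := by
        rw [coeff_vv_F P a _ (fun b hb h => by
          cases h
          exact lt_irrefl _ hb), coeff_X, if_pos rfl]
      rw [← h4]
      refine sub_C_mul_X_mem_low wN_pos h3 fun j hj hwj => ?_
      rw [coeff_vv_F P a _ (fun b hb h => ?_), coeff_X, if_neg]
      · intro h
        exact hj (Finsupp.single_left_injective one_ne_zero h).symm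
      · subst h
        have h5 : p ^ ((b : ℕ) + 1) - 1 = p ^ ((a : ℕ) + 1) - 1 := hwj
        have h6 := two_le_pow hp.out (k := (b : ℕ) + 1) (Nat.succ_ne_zero _)
        have h7 : p ^ ((b : ℕ) + 1) = p ^ ((a : ℕ) + 1) := by omega
        have h8 := Nat.pow_right_injective hp.out.two_le h7
        omega
    · rw [Sum.elim_inr, newGen, Sum.elim_inr]
      by_cases h : ∃ i, m + 2 = p ^ i
      · rw [if_pos h, if_pos h, C_1, one_mul, sub_self]
        exact Subalgebra.zero_mem _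
      · rw [if_neg h, if_neg h, ← coeff_yF_F h P]
        refine sub_C_mul_X_mem_low wN_pos (hF m) fun j hj hwj => ?_
        exfalso
        rcases j with a | j
        · have h1 : p ^ ((a : ℕ) + 1) - 1 = m + 1 := hwj
          have h2 := two_le_pow hp.out (k := (a : ℕ) + 1) (Nat.succ_ne_zero _)
          exact h ⟨(a : ℕ) + 1, by omega⟩
        · have : j + 1 = m + 1 := hwj
          exact hj (by rw [Nat.succ.inj this])
  · rw [aeval_X]
    ring

/-! ### reindexing -/

open Classical in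
/-- `T_{j+1} ↦ b_{p^(j+1) - 2}`, `Y_m ↦ v_{a+1}` if `m = p^(a+1) - 2`, `a < n`, `Y_m ↦ b_m`
otherwise. -/
noncomputable def idx (p n : ℕ) : ℕ ⊕ PI p n → Fin n ⊕ ℕ :=
  Sum.elim (fun j => Sum.inr (p ^ (j + 1) - 2)) fun m =>
    if h : ∃ a : Fin n, (m : ℕ) = p ^ ((a : ℕ) + 1) - 2 then Sum.inl h.choose else Sum.inr m

theorem pow_sub_inj {i j : ℕ} (h : p ^ (i + 1) - 2 = p ^ (j + 1) - 2) : i = j := by
  have h1 := two_le_pow hp.out (k := i + 1) (Nat.succ_ne_zero _)
  have h2 := two_le_pow hp.out (k := j + 1) (Nat.succ_ne_zero _)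
  have h3 : p ^ (i + 1) = p ^ (j + 1) := by omega
  have h4 := Nat.pow_right_injective hp.out.two_le h3
  omega

theorem idx_inr_pos {m : PI p n} {a : Fin n} (h : (m : ℕ) = p ^ ((a : ℕ) + 1) - 2) :
    idx p n (Sum.inr m) = Sum.inl a := by
  have h1 : ∃ a : Fin n, (m : ℕ) = p ^ ((a : ℕ) + 1) - 2 := ⟨a, h⟩
  rw [idx, Sum.elim_inr, dif_pos h1]
  congr 1
  exact Fin.ext (pow_sub_inj (h1.choose_spec.symm.trans h))

omit hp in
theorem idx_inr_neg {m : PI p n} (h : ¬ ∃ a : Fin n, (m : ℕ) = p ^ ((a : ℕ) + 1) - 2) :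
    idx p n (Sum.inr m) = Sum.inr (m : ℕ) := by
  rw [idx, Sum.elim_inr, dif_neg h]

omit hp in
/-- an index `p^i - 2` which is not special is `p^(a+1) - 2` with `a < n` -/
theorem exists_fin_of_not_isQ {m i : ℕ} (hm : ¬ IsQ p n m) (hi : m + 2 = p ^ i) :
    ∃ a : Fin n, m = p ^ ((a : ℕ) + 1) - 2 := by
  have hi0 : i ≠ 0 := by
    rintro rfl
    rw [pow_zero] at hi
    omega
  by_cases h : i - 1 < n
  · refine ⟨⟨i - 1, h⟩, ?_⟩
    change m = p ^ (i - 1 + 1) - 2
    rw [show i - 1 + 1 = i by omega]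
    omega
  · exfalso
    refine hm ⟨i - (n + 1), ?_⟩
    rw [qi, show n + 1 + (i - (n + 1)) = i by omega]
    omega

theorem not_isQ_pow (a : Fin n) : ¬ IsQ p n (p ^ ((a : ℕ) + 1) - 2) := by
  rintro ⟨l, hl⟩
  rw [qi, show n + 1 + l = (n + l) + 1 by omega] at hl
  have := pow_sub_inj hl
  have := a.2
  omega

theorem not_isQ_of_not_pow {m : ℕ} (hm : ¬ ∃ i, m + 2 = p ^ i) : ¬ IsQ p n m := by
  rintro ⟨l, rfl⟩
  refine hm ⟨n + 1 + l, ?_⟩
  rw [qi]
  exact Nat.sub_add_cancel (two_le_pow hp.out (by omega))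

theorem idx_bijective : Function.Bijective (idx p n) := by
  classical
  constructor
  · rintro (j | m) (j' | m') h
    · have h1 : (Sum.inr (p ^ (j + 1) - 2) : Fin n ⊕ ℕ) = Sum.inr (p ^ (j' + 1) - 2) := h
      rw [pow_sub_inj (Sum.inr.inj h1)]
    · exfalso
      have h1 : (Sum.inr (p ^ (j + 1) - 2) : Fin n ⊕ ℕ) = idx p n (Sum.inr m') := h
      by_cases h2 : ∃ a : Fin n, (m' : ℕ) = p ^ ((a : ℕ) + 1) - 2
      · rw [idx_inr_pos h2.choose_spec] at h1
        cases h1
      · rw [idx_inr_neg h2] at h1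
        have h3 := Sum.inr.inj h1
        exact h2 (exists_fin_of_not_isQ m'.2 (i := j + 1) (by
          rw [← h3]
          exact Nat.sub_add_cancel (two_le_pow hp.out (Nat.succ_ne_zero _))))
    · exfalso
      have h1 : idx p n (Sum.inr m) = (Sum.inr (p ^ (j' + 1) - 2) : Fin n ⊕ ℕ) := h
      by_cases h2 : ∃ a : Fin n, (m : ℕ) = p ^ ((a : ℕ) + 1) - 2
      · rw [idx_inr_pos h2.choose_spec] at h1
        cases h1
      · rw [idx_inr_neg h2] at h1
        have h3 := Sum.inr.inj h1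
        exact h2 (exists_fin_of_not_isQ m.2 (i := j' + 1) (by
          rw [h3]
          exact Nat.sub_add_cancel (two_le_pow hp.out (Nat.succ_ne_zero _))))
    · by_cases h2 : ∃ a : Fin n, (m : ℕ) = p ^ ((a : ℕ) + 1) - 2
      · by_cases h3 : ∃ a : Fin n, (m' : ℕ) = p ^ ((a : ℕ) + 1) - 2
        · obtain ⟨a, ha⟩ := h2
          obtain ⟨a', ha'⟩ := h3
          rw [idx_inr_pos ha, idx_inr_pos ha'] at h
          have := Sum.inl.inj h
          subst this
          exact congrArg Sum.inr (Subtype.ext (ha.trans ha'.symm))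
        · rw [idx_inr_pos h2.choose_spec, idx_inr_neg h3] at h
          cases h
      · by_cases h3 : ∃ a : Fin n, (m' : ℕ) = p ^ ((a : ℕ) + 1) - 2
        · rw [idx_inr_neg h2, idx_inr_pos h3.choose_spec] at h
          cases h
        · rw [idx_inr_neg h2, idx_inr_neg h3] at h
          exact congrArg Sum.inr (Subtype.ext (Sum.inr.inj h))
  · rintro (a | m)
    · exact ⟨Sum.inr ⟨p ^ ((a : ℕ) + 1) - 2, not_isQ_pow a⟩, idx_inr_pos rfl⟩
    · by_cases h : ∃ i, m + 2 = p ^ i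
      · obtain ⟨i, hi⟩ := h
        have hi0 : i ≠ 0 := by
          rintro rfl
          rw [pow_zero] at hi
          omega
        refine ⟨Sum.inl (i - 1), ?_⟩
        change (Sum.inr (p ^ (i - 1 + 1) - 2) : Fin n ⊕ ℕ) = Sum.inr m
        rw [show i - 1 + 1 = i by omega, ← hi, Nat.add_sub_cancel]
      · refine ⟨Sum.inr ⟨m, not_isQ_of_not_pow h⟩, idx_inr_neg ?_⟩
        rintro ⟨a, ha⟩
        refine h ⟨(a : ℕ) + 1, ?_⟩
        change m = _ at ha
        rw [ha]
        exact Nat.sub_add_cancel (two_le_pow hp.out (Nat.succ_ne_zero _))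

theorem chg_eq (P : Form p n) :
    P.chg = (aeval (newGen P) : VB p n →ₐ[ZMod p] VB p n).comp (rename (idx p n)) := by
  classical
  apply MvPolynomial.algHom_ext
  rintro (j | m)
  · rw [AlgHom.comp_apply, rename_X, aeval_X, Form.chg, aeval_X, Sum.elim_inl]
    change _ = newGen P (Sum.inr (p ^ (j + 1) - 2))
    rw [newGen, Sum.elim_inr, if_pos]
    exact ⟨j + 1, Nat.sub_add_cancel (two_le_pow hp.out (Nat.succ_ne_zero _))⟩
  · rw [AlgHom.comp_apply, rename_X, aeval_X, Form.chg, aeval_X, Sum.elim_inr]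
    by_cases h : ∃ a : Fin n, (m : ℕ) = p ^ ((a : ℕ) + 1) - 2
    · obtain ⟨a, ha⟩ := h
      rw [idx_inr_pos ha, newGen, Sum.elim_inl, ha, yF_pow_sub hp.out _ (Nat.succ_ne_zero _)]
    · rw [idx_inr_neg h, newGen, Sum.elim_inr, if_neg]
      rintro ⟨i, hi⟩
      exact h (exists_fin_of_not_isQ m.2 hi)

/-- **(B1)** -/
theorem b1 (h3 : SpecB3 p n) : SpecB1 p n := by
  intro P
  rw [chg_eq, AlgHom.coe_comp]
  exact (newGen_bijective h3 P).comp
    (renameEquiv (ZMod p) (Equiv.ofBijective _ idx_bijective)).bijective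

end Vale.Agent.P221.H903
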