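import Vale.Agent.P221.H395.Comp2

/-!
# P221, part (T1'): extension along `q : F ⟶ B` from a resolution of `B`

`F`, `B` and `Ψ n` are `p`-complete, `Ψ n` is concentrated mod `p` in degrees `≡ n` modulo `2`, `F` and
`B` in even degrees; `d0 : Ψ 0 ⟶ F`, `d n : Ψ (n + 1) ⟶ (Ψ n)⟦1⟧`; the sequence
`… ⟶ Ψ 1⟦-1⟧ ⟶ Ψ 0 ⟶ F ⟶ B ⟶ 0` is exact on the homotopy mod `p`. If the dual sequence of maps to a
`p`-complete object `Y` is exact at `Ψ n`, `n ≥ 1`, every `α : F ⟶ Y` with `d0 ≫ α = 0` extends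
along `q`.
-/

open CategoryTheory MonoidalCategory Limits Pretriangulated
open Vale.Agent.P251.T Vale.Agent.P251.S Vale.Agent.P221.H395

set_option linter.unusedSectionVars false

universe v u

namespace Vale.Agent.P221.H903

variable {T : Type u} [Category.{v} T] [Preadditive T] [HasZeroObject T]
    [HasShift T ℤ] [∀ n : ℤ, (shiftFunctor T n).Additive] [Pretriangulated T] [IsTriangulated T]
    [MonoidalCategory T] [SymmetricCategory T] [TensorTriangulated T] [MonoidalClosed T]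
    [HasCoproducts.{0} T] [HasProducts.{0} T] [StableCat T]

/-- The homotopy of `X ⊗ C` is zero in the degrees `k` with `k - s` odd. -/
def Conc (C : T) (s : ℤ) (X : T) : Prop :=
  ∀ k : ℤ, Odd (k - s) → ∀ f : (𝟙_ T)⟦k⟧ ⟶ X ⊗ C, f = 0

variable {C : T}

/-- maps from a shifted sphere to `X⟦1⟧ ⊗ C` are maps from a sphere to `X ⊗ C` -/
theorem hom_shift_tensor_eq_zero {X : T} {k : ℤ} (h : ∀ f : (𝟙_ T)⟦k - 1⟧ ⟶ X ⊗ C, f = 0)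
    (f : (𝟙_ T)⟦k⟧ ⟶ X⟦(1 : ℤ)⟧ ⊗ C) : f = 0 := by
  let e : (𝟙_ T)⟦k⟧ ≅ ((𝟙_ T)⟦k - 1⟧)⟦(1 : ℤ)⟧ :=
    (shiftFunctorAdd' T (k - 1) 1 k (by ring)).app (𝟙_ T)
  let e' : X⟦(1 : ℤ)⟧ ⊗ C ≅ (X ⊗ C)⟦(1 : ℤ)⟧ := ((tensorRight C).commShiftIso (1 : ℤ)).app X
  obtain ⟨g, hg⟩ := (shiftFunctor T (1 : ℤ)).map_surjective (e.inv ≫ f ≫ e'.hom)
  have h1 : f = e.hom ≫ (e.inv ≫ f ≫ e'.hom) ≫ e'.inv := by simp
  rw [h1, ← hg, h g, Functor.map_zero, zero_comp, comp_zero]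

theorem Conc.shift {X : T} {s : ℤ} (h : Conc C s X) : Conc C (s + 1) (X⟦(1 : ℤ)⟧) := by
  intro k hk f
  refine hom_shift_tensor_eq_zero (fun g => h _ ?_ g) f
  rwa [show k - 1 - s = k - (s + 1) by ring]

theorem Conc.congr {X : T} {s s' : ℤ} (h : Conc C s X) (hs : Even (s' - s)) : Conc C s' X := by
  intro k hk f
  refine h k ?_ f
  have h1 := hk.add_even hs
  rwa [show k - s' + (s' - s) = k - s by ring] at h1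

/-- the sphere `S^k⟦1⟧ ≅ S^{k+1}` -/
noncomputable def sphS (k : ℤ) : ((𝟙_ T)⟦k⟧)⟦(1 : ℤ)⟧ ≅ (𝟙_ T)⟦k + 1⟧ :=
  ((shiftFunctorAdd' T k 1 (k + 1) rfl).app (𝟙_ T)).symm

section tri

/-- the shift of `X ⊗ C` -/
noncomputable def shT (X C : T) : X⟦(1 : ℤ)⟧ ⊗ C ≅ (X ⊗ C)⟦(1 : ℤ)⟧ :=
  ((tensorRight C).commShiftIso (1 : ℤ)).app X

variable {X Y Z : T} {a : X ⟶ Y} {b : Y ⟶ Z} {c : Z ⟶ X⟦(1 : ℤ)⟧}
  (h : Triangle.mk a b c ∈ distTriang T)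

include h

theorem dist_tensor (C : T) :
    Triangle.mk (a ▷ C) (b ▷ C) (c ▷ C ≫ (shT X C).hom) ∈ distTriang T :=
  (tensorRight C).map_distinguished _ h

theorem comp_zero₁₂ (C : T) : a ▷ C ≫ b ▷ C = 0 := comp_distTriang_mor_zero₁₂ _ (dist_tensor h C)

theorem comp_zero₂₃ (C : T) : b ▷ C ≫ c ▷ C ≫ (shT X C).hom = 0 :=
  comp_distTriang_mor_zero₂₃ _ (dist_tensor h C)

theorem eq_zero_of_onto (hb : ∀ (k : ℤ) (z : (𝟙_ T)⟦k⟧ ⟶ Z ⊗ C), ∃ y, y ≫ b ▷ C = z) {k : ℤ}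
    (x : (𝟙_ T)⟦k⟧ ⟶ X ⊗ C) (hx : x ≫ a ▷ C = 0) : x = 0 := by
  obtain ⟨g, hg⟩ : ∃ g : ((𝟙_ T)⟦k⟧)⟦(1 : ℤ)⟧ ⟶ Z ⊗ C,
      x⟦(1 : ℤ)⟧' = g ≫ c ▷ C ≫ (shT X C).hom :=
    Triangle.coyoneda_exact₁ _ (dist_tensor h C) (x⟦(1 : ℤ)⟧') (by
      change x⟦(1 : ℤ)⟧' ≫ (a ▷ C)⟦(1 : ℤ)⟧' = 0
      rw [← Functor.map_comp, hx, Functor.map_zero])
  obtain ⟨y, hy⟩ := hb _ ((sphS k).inv ≫ g)
  have h1 : g = (sphS k).hom ≫ y ≫ b ▷ C := by rw [hy, Iso.hom_inv_id_assoc]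
  have h3 : (shiftFunctor T (1 : ℤ)).map x = (shiftFunctor T (1 : ℤ)).map 0 := by
    rw [hg, h1, Category.assoc, Category.assoc, comp_zero₂₃ h C, comp_zero, comp_zero,
      Functor.map_zero]
  exact (shiftFunctor T (1 : ℤ)).map_injective h3

theorem exists_of_comp_zero {k : ℤ} (z : (𝟙_ T)⟦k⟧ ⟶ Z ⊗ C) (hz : z ≫ c ▷ C = 0) :
    ∃ y, y ≫ b ▷ C = z := by
  obtain ⟨g, hg⟩ := Triangle.coyoneda_exact₃ _ (dist_tensor h C) z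
    (show z ≫ c ▷ C ≫ (shT X C).hom = 0 by rw [← Category.assoc, hz, zero_comp])
  exact ⟨g, hg.symm⟩

theorem exists_of_comp_zero' {k : ℤ} (y : (𝟙_ T)⟦k⟧ ⟶ Y ⊗ C) (hy : y ≫ b ▷ C = 0) :
    ∃ x, x ≫ a ▷ C = y := by
  obtain ⟨g, hg⟩ := Triangle.coyoneda_exact₂ _ (dist_tensor h C) y hy
  exact ⟨g, hg.symm⟩

theorem eq_zero_of_onto' (ha : ∀ (k : ℤ) (y : (𝟙_ T)⟦k⟧ ⟶ Y ⊗ C), ∃ x, x ≫ a ▷ C = y) {k : ℤ}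
    (z : (𝟙_ T)⟦k⟧ ⟶ Z ⊗ C) (hz : z ≫ c ▷ C = 0) : z = 0 := by
  obtain ⟨y, rfl⟩ := exists_of_comp_zero h z hz
  obtain ⟨x, rfl⟩ := ha _ y
  rw [Category.assoc, comp_zero₁₂ h C, comp_zero]

end tri

/-- The data of the resolution. -/
structure Res (p : ℕ) (C F B : T) where
  /-- the map which is resolved -/
  q : F ⟶ B
  /-- the terms of the resolution -/
  Ψ : ℕ → T
  /-- the first differential -/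
  d0 : Ψ 0 ⟶ F
  /-- the differentials -/
  d : ∀ n, Ψ (n + 1) ⟶ (Ψ n)⟦(1 : ℤ)⟧
  d0_q : d0 ≫ q = 0
  d_d0 : d 0 ≫ d0⟦(1 : ℤ)⟧' = 0
  d_d : ∀ n, d (n + 1) ≫ (d n)⟦(1 : ℤ)⟧' = 0
  pF : PComplete p F
  pB : PComplete p B
  pΨ : ∀ n, PComplete p (Ψ n)
  cF : Conc C 0 F
  cB : Conc C 0 B
  cΨ : ∀ n : ℕ, Conc C n (Ψ n)
  par : ∀ (n : ℕ) (K : T), PComplete p K → Conc C n K → ∀ f : Ψ (n + 1) ⟶ K, f = 0
  ex_q : ∀ (k : ℤ) (y : (𝟙_ T)⟦k⟧ ⟶ B ⊗ C), ∃ z, z ≫ q ▷ C = y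
  ex_F : ∀ (k : ℤ) (y : (𝟙_ T)⟦k⟧ ⟶ F ⊗ C), y ≫ q ▷ C = 0 → ∃ z, z ≫ d0 ▷ C = y
  ex_0 : ∀ (k : ℤ) (y : (𝟙_ T)⟦k⟧ ⟶ (Ψ 0)⟦(1 : ℤ)⟧ ⊗ C), y ≫ (d0⟦(1 : ℤ)⟧' ▷ C) = 0 →
    ∃ z, z ≫ d 0 ▷ C = y
  ex : ∀ (n : ℕ) (k : ℤ) (y : (𝟙_ T)⟦k⟧ ⟶ (Ψ (n + 1))⟦(1 : ℤ)⟧ ⊗ C),
    y ≫ ((d n)⟦(1 : ℤ)⟧' ▷ C) = 0 → ∃ z, z ≫ d (n + 1) ▷ C = y

namespace Res

variable {p : ℕ} {F B : T} (R : Res p C F B)

/-- the targets of the differentials -/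
def Φ : ℕ → T
  | 0 => F
  | n + 1 => (R.Ψ n)⟦(1 : ℤ)⟧

/-- all differentials -/
def D : ∀ n, R.Ψ n ⟶ R.Φ n
  | 0 => R.d0
  | n + 1 => R.d n

theorem D_D : ∀ n, R.d n ≫ (R.D n)⟦(1 : ℤ)⟧' = 0
  | 0 => R.d_d0
  | n + 1 => R.d_d n

theorem cΦ : ∀ n : ℕ, Conc C n (R.Φ n)
  | 0 => R.cF.congr (by simp)
  | n + 1 => by
    have := (R.cΨ n).shift
    push_cast
    exact this

theorem exΦ : ∀ (n : ℕ) (k : ℤ) (y : (𝟙_ T)⟦k⟧ ⟶ (R.Ψ n)⟦(1 : ℤ)⟧ ⊗ C),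
    y ≫ ((R.D n)⟦(1 : ℤ)⟧' ▷ C) = 0 → ∃ z, z ≫ R.d n ▷ C = y
  | 0 => R.ex_0
  | n + 1 => R.ex n

/-- a stage of the construction -/
structure Stage (n : ℕ) where
  /-- the object -/
  L : T
  /-- the map to the resolution -/
  u : L ⟶ R.Φ n
  /-- the map from the resolution -/
  κ : R.Ψ n ⟶ L
  pc : PComplete p L
  conc : Conc C n L
  hκ : κ ≫ u = R.D n
  nul : R.d n ≫ κ⟦(1 : ℤ)⟧' = 0
  onto : ∀ (k : ℤ) (y : (𝟙_ T)⟦k⟧ ⟶ L ⊗ C), ∃ z, z ≫ κ ▷ C = y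

/-- the first stage: the fibre of `q` -/
theorem exists_zero : ∃ (S : R.Stage 0) (δ : B ⟶ S.L⟦(1 : ℤ)⟧),
    Triangle.mk S.u R.q δ ∈ distTriang T := by
  obtain ⟨L, u, δ, h⟩ := distinguished_cocone_triangle₁ R.q
  have hz : ∀ (k : ℤ) (y : (𝟙_ T)⟦k⟧ ⟶ L ⊗ C), y ≫ u ▷ C = 0 → y = 0 := fun k y hy =>
    eq_zero_of_onto h R.ex_q y hy
  obtain ⟨κ, hκ⟩ : ∃ κ : R.Ψ 0 ⟶ L, R.d0 = κ ≫ u :=
    Triangle.coyoneda_exact₂ _ h R.d0 R.d0_q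
  refine ⟨⟨L, u, κ, PComplete.ext₁ _ h R.pF R.pB, ?_, hκ.symm, ?_, ?_⟩, δ, h⟩
  · intro k hk y
    exact hz k y (R.cF k (by simpa using hk) _)
  · obtain ⟨g, hg⟩ : ∃ g : R.Ψ 1 ⟶ B, R.d 0 ≫ κ⟦(1 : ℤ)⟧' = g ≫ δ :=
      Triangle.coyoneda_exact₁ _ h (R.d 0 ≫ κ⟦(1 : ℤ)⟧') (by
        change (R.d 0 ≫ κ⟦(1 : ℤ)⟧') ≫ u⟦(1 : ℤ)⟧' = 0
        rw [Category.assoc, ← Functor.map_comp, ← hκ, R.d_d0])
    rw [hg, R.par 0 _ R.pB (R.cB.congr (by simp)) g, zero_comp]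
  · intro k y
    obtain ⟨z, hz'⟩ := R.ex_F k (y ≫ u ▷ C) (by
      rw [Category.assoc, comp_zero₁₂ h, comp_zero])
    refine ⟨z, sub_eq_zero.1 (hz k _ ?_)⟩
    rw [Preadditive.sub_comp, Category.assoc, ← comp_whiskerRight, ← hκ, hz', sub_self]

/-- the next stage: the cofibre of `κ` -/
theorem exists_succ {n : ℕ} (S : R.Stage n) : ∃ (S' : R.Stage (n + 1)) (j : S.L ⟶ S'.L),
    Triangle.mk S.κ j S'.u ∈ distTriang T := by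
  obtain ⟨L', j, u', h⟩ := distinguished_cocone_triangle S.κ
  have hz : ∀ (k : ℤ) (y : (𝟙_ T)⟦k⟧ ⟶ L' ⊗ C), y ≫ u' ▷ C = 0 → y = 0 := fun k y hy =>
    eq_zero_of_onto' h S.onto y hy
  have hu : u' ≫ S.κ⟦(1 : ℤ)⟧' = 0 := comp_distTriang_mor_zero₃₁ _ h
  have hrot := rot_of_distTriang _ h
  obtain ⟨κ', hκ'⟩ : ∃ κ' : R.Ψ (n + 1) ⟶ L', R.d n = κ' ≫ u' :=
    Triangle.coyoneda_exact₃ _ hrot (R.d n) (by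
      change R.d n ≫ (-S.κ⟦(1 : ℤ)⟧') = 0
      rw [Preadditive.comp_neg, S.nul, neg_zero])
  refine ⟨⟨L', u', κ', PComplete.ext₃ _ h (R.pΨ n) S.pc, ?_, hκ'.symm, ?_, ?_⟩, j, h⟩
  · intro k hk y
    exact hz k y (R.cΦ (n + 1) k hk _)
  · obtain ⟨g, hg⟩ : ∃ g : R.Ψ (n + 1 + 1) ⟶ S.L⟦(1 : ℤ)⟧,
        R.d (n + 1) ≫ κ'⟦(1 : ℤ)⟧' = g ≫ (-j⟦(1 : ℤ)⟧') :=
      Triangle.coyoneda_exact₁ _ (rot_of_distTriang _ hrot) (R.d (n + 1) ≫ κ'⟦(1 : ℤ)⟧') (by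
        change (R.d (n + 1) ≫ κ'⟦(1 : ℤ)⟧') ≫ u'⟦(1 : ℤ)⟧' = 0
        rw [Category.assoc, ← Functor.map_comp, ← hκ', R.d_d])
    have hc : Conc C ((n + 1 : ℕ) : ℤ) (S.L⟦(1 : ℤ)⟧) := by
      have := S.conc.shift
      push_cast
      exact this
    rw [hg, R.par (n + 1) _ (S.pc.shift 1) hc g, zero_comp]
  · intro k y
    obtain ⟨z, hz'⟩ := R.exΦ n k (y ≫ u' ▷ C) (by
      rw [← S.hκ, Functor.map_comp, comp_whiskerRight, Category.assoc,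
        ← comp_whiskerRight_assoc u', hu, MonoidalPreadditive.zero_whiskerRight, zero_comp,
        comp_zero])
    refine ⟨z, sub_eq_zero.1 (hz k _ ?_)⟩
    rw [Preadditive.sub_comp, Category.assoc, ← comp_whiskerRight, ← hκ', hz', sub_self]

/-- all stages -/
theorem exists_stages : ∃ (S : ∀ n, R.Stage n) (j : ∀ n, (S n).L ⟶ (S (n + 1)).L)
    (δ : B ⟶ (S 0).L⟦(1 : ℤ)⟧), Triangle.mk (S 0).u R.q δ ∈ distTriang T ∧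
      ∀ n, Triangle.mk (S n).κ (j n) (S (n + 1)).u ∈ distTriang T := by
  obtain ⟨S0, δ, h0⟩ := R.exists_zero
  choose nx j hj using fun n (S : R.Stage n) => R.exists_succ S
  let S : ∀ n, R.Stage n := fun n => Nat.rec S0 (fun n S => nx n S) n
  exact ⟨S, fun n => j n (S n), δ, h0, fun n => hj n (S n)⟩

/-- **Extension along `q`.** -/
theorem exists_extension (hC : ∃ (i : 𝟙_ T ⟶ C) (δ : C ⟶ (𝟙_ T)⟦(1 : ℤ)⟧),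
      Triangle.mk ((p : ℤ) • 𝟙 (𝟙_ T)) i δ ∈ distTriang T)
    (hcpt : ∀ k : ℤ, IsCpt ((𝟙_ T)⟦k⟧)) {Y : T} (hY : PComplete p Y)
    (van : ∀ (n : ℕ) (ψ : R.Ψ (n + 1) ⟶ Y), R.d (n + 1) ≫ ψ⟦(1 : ℤ)⟧' = 0 →
      ∃ φ : (R.Ψ n)⟦(1 : ℤ)⟧ ⟶ Y, R.d n ≫ φ = ψ)
    (α : F ⟶ Y) (hα : R.d0 ≫ α = 0) : ∃ β : B ⟶ Y, R.q ≫ β = α := by
  obtain ⟨i, δC, hC⟩ := hC
  obtain ⟨S, j, δ, h0, hS⟩ := R.exists_stages
  -- the compatible family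
  have step : ∀ (n : ℕ) (x : {x : (S n).L ⟶ Y // (S n).κ ≫ x = 0}),
      ∃ x' : {x' : (S (n + 1)).L ⟶ Y // (S (n + 1)).κ ≫ x' = 0}, j n ≫ x'.1 = x.1 := by
    rintro n ⟨x, hx⟩
    obtain ⟨β, hβ⟩ : ∃ β : (S (n + 1)).L ⟶ Y, x = j n ≫ β :=
      Triangle.yoneda_exact₂ _ (hS n) x hx
    obtain ⟨φ, hφ⟩ := van n ((S (n + 1)).κ ≫ β) (by
      rw [Functor.map_comp, reassoc_of% (S (n + 1)).nul, zero_comp])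
    obtain ⟨u, hju, h1⟩ : ∃ u : (S (n + 1)).L ⟶ (R.Ψ n)⟦(1 : ℤ)⟧, j n ≫ u = 0 ∧
        (S (n + 1)).κ ≫ u = R.d n :=
      ⟨(S (n + 1)).u, comp_distTriang_mor_zero₂₃ _ (hS n), (S (n + 1)).hκ⟩
    refine ⟨⟨β - u ≫ φ, ?_⟩, ?_⟩
    · rw [Preadditive.comp_sub, reassoc_of% h1, hφ, sub_self]
    · change j n ≫ (β - u ≫ φ) = x
      rw [Preadditive.comp_sub, reassoc_of% hju, zero_comp, sub_zero, hβ]
  choose nx hnx using step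
  obtain ⟨u0, hu0, h0⟩ : ∃ u0 : (S 0).L ⟶ F, (S 0).κ ≫ u0 = R.d0 ∧
      Triangle.mk u0 R.q δ ∈ distTriang T := ⟨(S 0).u, (S 0).hκ, h0⟩
  have hx0 : (S 0).κ ≫ u0 ≫ α = 0 := by rw [← Category.assoc, hu0, hα]
  let x : ∀ n, {x : (S n).L ⟶ Y // (S n).κ ≫ x = 0} :=
    fun n => Nat.rec ⟨u0 ≫ α, hx0⟩ (fun n x => nx n x) n
  have hx : ∀ n, j n ≫ (x (n + 1)).1 = (x n).1 := fun n => hnx n (x n)
  -- the telescope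
  obtain ⟨U⟩ := exists_tel (X := fun n => (S n).L) j
  obtain ⟨l, hl⟩ := U.exists_desc (Z := Y) (fun n => (x n).1) hx
  have hU : IsZero (U.obj ⊗ C) := by
    refine StableCat.generator _ fun k f => ?_
    obtain ⟨n, b, hb⟩ := (U.tensR C).exists_factor (hcpt k) f
    change (𝟙_ T)⟦k⟧ ⟶ (S n).L ⊗ C at b
    change b ≫ U.ι n ▷ C = f at hb
    obtain ⟨z, hz⟩ := (S n).onto k b
    have h1 : j n ≫ U.ι (n + 1) = U.ι n := U.w n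
    have h3 : (S n).κ ▷ C ≫ U.ι n ▷ C = 0 := by
      rw [← h1, comp_whiskerRight, ← Category.assoc, comp_zero₁₂ (hS n) C, zero_comp]
    rw [← hb, ← hz, Category.assoc, h3, comp_zero]
  have hl0 : l = 0 := hY _ ((isIso_p_iff hC _).2 hU) l
  have h3 : u0 ≫ α = 0 := by
    have := hl 0
    rw [hl0, comp_zero] at this
    exact this.symm
  obtain ⟨β, hβ⟩ : ∃ β : B ⟶ Y, α = R.q ≫ β := Triangle.yoneda_exact₂ _ h0 α h3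
  exact ⟨β, hβ.symm⟩

end Res

end Vale.Agent.P221.H903
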