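import Mathlib.Algebra.BigOperators.Group.Finset.Basic
import Mathlib.Algebra.Group.Subgroup.Basic
import Mathlib.Algebra.Module.BigOperators
import Mathlib.Tactic

/-!
# P221, part (T1'): algebra of Koszul complexes indexed by the finite subsets of `ℕ`

`M` a group with commuting endomorphisms `X l` of degree `d l`.

* `claimA` : if the Koszul cohomology in degree `1` vanishes for all initial segments, so does the
  one in all degrees `≥ 2`, for all subsets;
* `claimB` : exactness of the Koszul complex of a regular sequence.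
-/

namespace Vale.Agent.P221.H903

open Finset

/-- the sign of `l` in `I` -/
def sg (I : Finset ℕ) (l : ℕ) : ℤ := (-1) ^ (I.filter (· < l)).card

/-- the degree of `I` -/
def dI (d : ℕ → ℤ) (I : Finset ℕ) : ℤ := ∑ l ∈ I, d l

theorem dI_insert (d : ℕ → ℤ) {I : Finset ℕ} {m : ℕ} (h : m ∉ I) :
    dI d (insert m I) = d m + dI d I := sum_insert h

theorem dI_erase (d : ℕ → ℤ) {I : Finset ℕ} {m : ℕ} (h : m ∈ I) :
    d m + dI d (I.erase m) = dI d I := add_sum_erase I d h

theorem not_mem_of_subset_range {I : Finset ℕ} {m : ℕ} (h : I ⊆ range m) : m ∉ I := fun hm => by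
  simpa using h hm

theorem sg_insert_of_le {I : Finset ℕ} {m l : ℕ} (h : l ≤ m) : sg (insert m I) l = sg I l := by
  rw [sg, sg, filter_insert, if_neg (by omega)]

theorem sg_insert_self {I : Finset ℕ} {m : ℕ} (h : I ⊆ range m) :
    sg (insert m I) m = (-1) ^ I.card := by
  rw [sg, filter_insert, if_neg (lt_irrefl m), filter_true_of_mem]
  intro i hi
  simpa using h hi

theorem sg_singleton (l : ℕ) : sg {l} l = 1 := by
  rw [sg, filter_singleton, if_neg (lt_irrefl _), card_empty, pow_zero]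

section

variable {M : Type*} [AddCommGroup M] (X : ℕ → M →+ M)

/-- the coboundary -/
def cob (φ : Finset ℕ → M) (I : Finset ℕ) : M := ∑ l ∈ I, sg I l • X l (φ (I.erase l))

theorem cob_insert {φ : Finset ℕ → M} {I : Finset ℕ} {m : ℕ} (h : I ⊆ range m) :
    cob X φ (insert m I) = cob X (fun J => φ (insert m J)) I + (-1) ^ I.card • X m (φ I) := by
  have hm := not_mem_of_subset_range h
  rw [cob, sum_insert hm, erase_insert hm, sg_insert_self h, add_comm]
  congr 1
  refine sum_congr rfl fun l hl => ?_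
  have hlm : l < m := by simpa using h hl
  rw [sg_insert_of_le hlm.le, erase_insert_of_ne hlm.ne']

theorem cob_congr {φ φ' : Finset ℕ → M} {I : Finset ℕ} (h : ∀ l ∈ I, φ (I.erase l) = φ' (I.erase l)) :
    cob X φ I = cob X φ' I := sum_congr rfl fun l hl => by rw [h l hl]

theorem cob_sub (φ φ' : Finset ℕ → M) (I : Finset ℕ) :
    cob X (fun J => φ J - φ' J) I = cob X φ I - cob X φ' I := by
  simp only [cob, map_sub, smul_sub, sum_sub_distrib]

variable (G : ℤ → AddSubgroup M) (d : ℕ → ℤ) (d0 : ℤ)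

/-- vanishing of the Koszul cohomology of degree `s` for the subsets of `range m` -/
def ClaimA (s m : ℕ) : Prop :=
  ∀ c : ℤ, d0 ≤ c → ∀ ψ : Finset ℕ → M, (∀ I ⊆ range m, I.card = s → ψ I ∈ G (c + dI d I)) →
    (∀ I ⊆ range m, I.card = s + 1 → cob X ψ I = 0) →
    ∃ φ : Finset ℕ → M, (∀ J ⊆ range m, J.card + 1 = s → φ J ∈ G (c + dI d J)) ∧
      ∀ I ⊆ range m, I.card = s → cob X φ I = ψ I

variable {X G d d0}

theorem claimA_one (H : ∀ (m : ℕ) (c : ℤ), d0 ≤ c → ∀ ψ : ℕ → M, (∀ l < m, ψ l ∈ G (c + d l)) →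
      (∀ i < m, ∀ l < m, X i (ψ l) = X l (ψ i)) → ∃ φ ∈ G c, ∀ l < m, X l φ = ψ l) (m : ℕ) :
    ClaimA X G d d0 1 m := by
  intro c hc ψ hψ hz
  obtain ⟨φ, hφ, h⟩ := H m c hc (fun l => ψ {l}) (fun l hl => by
    have := hψ {l} (by simpa using hl) (card_singleton l)
    rwa [dI, sum_singleton] at this) (by
    have key : ∀ i l, i < l → l < m → X i (ψ {l}) = X l (ψ {i}) := by
      intro i l hil hl
      have h1 := hz (insert l {i}) (by
        intro j hj
        rw [mem_insert, mem_singleton] at hj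
        rw [mem_range]
        omega) (by rw [card_insert_of_notMem (by simpa using hil.ne'), card_singleton])
      rw [cob_insert X (by simpa using hil), cob, sum_singleton, card_singleton, erase_singleton]
        at h1
      have h3 : (insert l ∅ : Finset ℕ) = {l} := rfl
      rw [sg_singleton, one_smul, h3, pow_one, neg_smul, one_smul] at h1
      exact add_neg_eq_zero.1 h1
    intro i hi l hl
    rcases lt_trichotomy i l with h | h | h
    · exact key i l h hl
    · rw [h]
    · exact (key l i h hi).symm)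
  refine ⟨fun _ => φ, fun J _ hJ => ?_, fun I hI hI1 => ?_⟩
  · have hJ0 : J = ∅ := card_eq_zero.1 (by omega)
    subst hJ0
    simpa [dI] using hφ
  · obtain ⟨l, rfl⟩ := card_eq_one.1 hI1
    rw [cob, sum_singleton, sg_singleton, one_smul]
    exact h l (by simpa using hI)

/-- extension from the subsets of `range m` to the subsets of `range (m + 1)` -/
theorem stepA (hX : ∀ l k y, y ∈ G k → X l y ∈ G (k + d l)) (hd : ∀ l, 0 ≤ d l)
    (hcomm : ∀ i l y, X i (X l y) = X l (X i y)) {s m : ℕ} (ih : ClaimA X G d d0 s m) {c : ℤ}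
    (hc : d0 ≤ c) {ψ : Finset ℕ → M}
    (hψ : ∀ I ⊆ range (m + 1), I.card = s + 1 → ψ I ∈ G (c + dI d I))
    (hz : ∀ I ⊆ range (m + 1), I.card = s + 1 + 1 → cob X ψ I = 0) {φ : Finset ℕ → M}
    (hφ : ∀ J ⊆ range m, J.card + 1 = s + 1 → φ J ∈ G (c + dI d J))
    (h : ∀ I ⊆ range m, I.card = s + 1 → cob X φ I = ψ I) :
    ∃ φ' : Finset ℕ → M, (∀ J ⊆ range (m + 1), J.card + 1 = s + 1 → φ' J ∈ G (c + dI d J)) ∧
      (∀ I ⊆ range (m + 1), I.card = s + 1 → cob X φ' I = ψ I) ∧ ∀ J ⊆ range m, φ' J = φ J := by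
  have hsub : ∀ {I : Finset ℕ}, I ⊆ range m → insert m I ⊆ range (m + 1) := by
    intro I hI j hj
    rw [mem_insert] at hj
    rcases hj with rfl | hj
    · simp
    · have := hI hj
      rw [mem_range] at this ⊢
      omega
  have hsub' : ∀ {I : Finset ℕ}, I ⊆ range (m + 1) → m ∉ I → I ⊆ range m := by
    intro I hI hm j hj
    have h1 := hI hj
    have h2 : j ≠ m := fun e => hm (e ▸ hj)
    rw [mem_range] at h1 ⊢
    omega
  obtain ⟨φ', hφ', h'⟩ := ih (c + d m) (by have := hd m; omega)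
    (fun I => ψ (insert m I) - (-1 : ℤ) ^ s • X m (φ I)) (fun I hI hIs => by
      have hm := not_mem_of_subset_range hI
      refine sub_mem ?_ (AddSubgroup.zsmul_mem _ ?_ _)
      · have := hψ _ (hsub hI) (by rw [card_insert_of_notMem hm, hIs])
        rwa [dI_insert d hm, ← add_assoc] at this
      · have := hX m _ _ (hφ I hI (by rw [hIs]))
        rwa [add_right_comm] at this) (fun I hI hIs => by
      have hm := not_mem_of_subset_range hI
      have h1 := hz _ (hsub hI) (by rw [card_insert_of_notMem hm, hIs])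
      rw [cob_insert X hI, hIs] at h1
      have h2 : cob X (fun J => (-1 : ℤ) ^ s • X m (φ J)) I = (-1 : ℤ) ^ s • X m (ψ I) := by
        rw [← h I hI hIs, cob, cob, map_sum, smul_sum]
        refine sum_congr rfl fun l hl => ?_
        rw [map_zsmul, map_zsmul, hcomm l m, smul_comm]
      rw [cob_sub, h2, sub_eq_zero]
      have h3 := eq_neg_of_add_eq_zero_left h1
      rw [h3, pow_succ, mul_neg_one, neg_smul, neg_neg])
  refine ⟨fun J => if m ∈ J then φ' (J.erase m) else φ J, ?_, ?_, ?_⟩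
  · intro J hJ hJs
    by_cases hm : m ∈ J
    · simp only [if_pos hm]
      have h1 := hφ' (J.erase m) (hsub' ((erase_subset m J).trans hJ) (notMem_erase m J)) (by
        rw [card_erase_of_mem hm]
        have := card_pos.2 ⟨m, hm⟩
        omega)
      rwa [add_assoc, dI_erase d hm] at h1
    · simp only [if_neg hm]
      exact hφ J (hsub' hJ hm) hJs
  · intro I hI hIs
    by_cases hm : m ∈ I
    · have hI' : I.erase m ⊆ range m :=
        hsub' ((erase_subset m I).trans hI) (notMem_erase m I)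
      have hc' : (I.erase m).card = s := by rw [card_erase_of_mem hm, hIs, Nat.add_sub_cancel]
      have h1 := h' _ hI' hc'
      rw [← insert_erase hm, cob_insert X hI', hc', if_neg (notMem_erase m I)]
      have h2 : cob X (fun J => if m ∈ insert m J then φ' ((insert m J).erase m)
          else φ (insert m J)) (I.erase m) = cob X φ' (I.erase m) := by
        refine cob_congr X fun l hl => ?_
        rw [if_pos (mem_insert_self _ _), erase_insert]
        exact fun h => notMem_erase m I (mem_of_mem_erase h)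
      rw [h2, h1, sub_add_cancel]
    · rw [← h I (hsub' hI hm) hIs]
      refine cob_congr X fun l hl => if_neg fun h => hm (mem_of_mem_erase h)
  · intro J hJ
    exact if_neg (not_mem_of_subset_range hJ)

theorem claimA_succ (hX : ∀ l k y, y ∈ G k → X l y ∈ G (k + d l)) (hd : ∀ l, 0 ≤ d l)
    (hcomm : ∀ i l y, X i (X l y) = X l (X i y)) {s : ℕ} (ih : ∀ m, ClaimA X G d d0 s m) (m : ℕ) :
    ClaimA X G d d0 (s + 1) m := by
  intro c hc ψ hψ hz
  have key : ∀ k ≤ m, ∃ φ : Finset ℕ → M, (∀ J ⊆ range k, J.card + 1 = s + 1 →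
      φ J ∈ G (c + dI d J)) ∧ ∀ I ⊆ range k, I.card = s + 1 → cob X φ I = ψ I := by
    intro k hk
    induction k with
    | zero =>
      refine ⟨fun _ => 0, fun _ _ _ => zero_mem _, fun I hI hIs => ?_⟩
      rw [range_zero, subset_empty] at hI
      subst hI
      rw [card_empty] at hIs
      omega
    | succ k ihk =>
      obtain ⟨φ, h1, h2⟩ := ihk (by omega)
      have hr : range (k + 1) ⊆ range m := range_subset_range.2 hk
      obtain ⟨φ', h3, h4, -⟩ := stepA hX hd hcomm (ih k) hc (ψ := ψ)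
        (fun I hI => hψ I (hI.trans hr)) (fun I hI => hz I (hI.trans hr)) h1 h2
      exact ⟨φ', h3, h4⟩
  exact key m le_rfl

theorem claimA_all (hX : ∀ l k y, y ∈ G k → X l y ∈ G (k + d l)) (hd : ∀ l, 0 ≤ d l)
    (hcomm : ∀ i l y, X i (X l y) = X l (X i y))
    (H : ∀ (m : ℕ) (c : ℤ), d0 ≤ c → ∀ ψ : ℕ → M, (∀ l < m, ψ l ∈ G (c + d l)) →
      (∀ i < m, ∀ l < m, X i (ψ l) = X l (ψ i)) → ∃ φ ∈ G c, ∀ l < m, X l φ = ψ l) (s m : ℕ) :
    ClaimA X G d d0 (s + 1) m := by
  induction s generalizing m with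
  | zero => exact claimA_one H m
  | succ s ih => exact claimA_succ hX hd hcomm ih m

/-- **Vanishing of the Koszul cohomology in the degrees `≥ 2`.** -/
theorem claimA (hX : ∀ l k y, y ∈ G k → X l y ∈ G (k + d l)) (hd : ∀ l, 0 ≤ d l)
    (hcomm : ∀ i l y, X i (X l y) = X l (X i y))
    (H : ∀ (m : ℕ) (c : ℤ), d0 ≤ c → ∀ ψ : ℕ → M, (∀ l < m, ψ l ∈ G (c + d l)) →
      (∀ i < m, ∀ l < m, X i (ψ l) = X l (ψ i)) → ∃ φ ∈ G c, ∀ l < m, X l φ = ψ l) {s : ℕ} {c : ℤ}
    (hc : d0 ≤ c) {ψ : Finset ℕ → M} (hψ : ∀ I : Finset ℕ, I.card = s + 1 + 1 → ψ I ∈ G (c + dI d I))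
    (hz : ∀ I : Finset ℕ, I.card = s + 1 + 1 + 1 → cob X ψ I = 0) :
    ∃ φ : Finset ℕ → M, (∀ J : Finset ℕ, J.card = s + 1 → φ J ∈ G (c + dI d J)) ∧
      ∀ I : Finset ℕ, I.card = s + 1 + 1 → cob X φ I = ψ I := by
  let P : ℕ → (Finset ℕ → M) → Prop := fun m φ => (∀ J ⊆ range m, J.card + 1 = s + 1 + 1 →
      φ J ∈ G (c + dI d J)) ∧ ∀ I ⊆ range m, I.card = s + 1 + 1 → cob X φ I = ψ I
  have hstep : ∀ (m : ℕ) (φ : {φ // P m φ}), ∃ φ' : {φ // P (m + 1) φ},
      ∀ J ⊆ range m, φ'.1 J = φ.1 J := by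
    rintro m ⟨φ, h1, h2⟩
    obtain ⟨φ', h3, h4, h5⟩ := stepA hX hd hcomm (claimA_all hX hd hcomm H s m) hc (ψ := ψ)
      (fun I _ => hψ I) (fun I _ => hz I) h1 h2
    exact ⟨⟨φ', h3, h4⟩, h5⟩
  choose nx hnx using hstep
  have h0 : P 0 (fun _ => 0) := by
    refine ⟨fun _ _ _ => zero_mem _, fun I hI hIs => ?_⟩
    rw [range_zero, subset_empty] at hI
    subst hI
    rw [card_empty] at hIs
    omega
  let Φ : ∀ m, {φ // P m φ} := fun m => Nat.rec ⟨_, h0⟩ (fun m φ => nx m φ) m
  have hΦ : ∀ m, ∀ J ⊆ range m, (Φ (m + 1)).1 J = (Φ m).1 J := fun m => hnx m (Φ m)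
  have hΦ' : ∀ m k, ∀ J ⊆ range m, (Φ (m + k)).1 J = (Φ m).1 J := by
    intro m k J hJ
    induction k with
    | zero => rfl
    | succ k ih =>
      rw [← ih]
      exact hΦ (m + k) J (hJ.trans (range_subset_range.2 (Nat.le_add_right _ _)))
  have hsup : ∀ J : Finset ℕ, J ⊆ range (J.sup id + 1) := fun J j hj => by
    rw [mem_range, Nat.lt_succ_iff]
    exact le_sup (f := id) hj
  have hval : ∀ (m : ℕ) (J : Finset ℕ), J ⊆ range m → (Φ (J.sup id + 1)).1 J = (Φ m).1 J := by
    intro m J hJ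
    rcases le_total m (J.sup id + 1) with h | h
    · obtain ⟨k, hk⟩ := Nat.exists_eq_add_of_le h
      rw [hk]
      exact hΦ' m k J hJ
    · obtain ⟨k, hk⟩ := Nat.exists_eq_add_of_le h
      rw [hk]
      exact (hΦ' _ k J (hsup J)).symm
  refine ⟨fun J => (Φ (J.sup id + 1)).1 J, fun J hJ => ?_, fun I hI => ?_⟩
  · exact (Φ (J.sup id + 1)).2.1 J (hsup J) (by rw [hJ])
  · rw [← (Φ (I.sup id + 1)).2.2 I (hsup I) hI]
    exact cob_congr X fun l _ => hval _ _ ((erase_subset l I).trans (hsup I))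

/-! ### chains -/

variable (X)

/-- the boundary -/
def bd (m : ℕ) (z : Finset ℕ → M) (J : Finset ℕ) : M :=
  ∑ l ∈ range m \ J, sg (insert l J) l • X l (z (insert l J))

theorem bd_succ_of_subset {m : ℕ} {z : Finset ℕ → M} {J : Finset ℕ} (h : J ⊆ range m) :
    bd X (m + 1) z J = bd X m z J + (-1) ^ J.card • X m (z (insert m J)) := by
  have hm := not_mem_of_subset_range h
  have h1 : range (m + 1) \ J = insert m (range m \ J) := by
    rw [range_add_one, insert_sdiff_of_notMem _ hm]
  rw [bd, h1, sum_insert (by simp), sg_insert_self h, add_comm]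
  rfl

theorem bd_insert {m : ℕ} {z : Finset ℕ → M} {J : Finset ℕ} (_h : J ⊆ range m) :
    bd X (m + 1) z (insert m J) = bd X m (fun I => z (insert m I)) J := by
  have h1 : range (m + 1) \ insert m J = range m \ J := by
    ext i
    simp only [mem_sdiff, mem_range, mem_insert, not_or]
    constructor
    · rintro ⟨h1, h2, h3⟩
      exact ⟨by omega, h3⟩
    · rintro ⟨h1, h2⟩
      exact ⟨by omega, by omega, h2⟩
  rw [bd, h1]
  refine sum_congr rfl fun l hl => ?_
  have hlm : l < m := by
    have := (mem_sdiff.1 hl).1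
    simpa using this
  rw [insert_comm, sg_insert_of_le hlm.le]

theorem bd_congr {m : ℕ} {z z' : Finset ℕ → M} {J : Finset ℕ}
    (h : ∀ l < m, l ∉ J → z (insert l J) = z' (insert l J)) : bd X m z J = bd X m z' J :=
  sum_congr rfl fun l hl => by
    rw [mem_sdiff, mem_range] at hl
    rw [h l hl.1 hl.2]

theorem bd_sub (m : ℕ) (z z' : Finset ℕ → M) (J : Finset ℕ) :
    bd X m (fun J => z J - z' J) J = bd X m z J - bd X m z' J := by
  simp only [bd, map_sub, smul_sub, sum_sub_distrib]

variable (G d)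

/-- exactness of the Koszul complex at the subsets of cardinality `s` of `range m` -/
def ClaimB (s m : ℕ) : Prop :=
  ∀ (K : ℤ) (y : Finset ℕ → M), (∀ I ⊆ range m, I.card = s → y I ∈ G (K - dI d I)) →
    (∀ J ⊆ range m, J.card + 1 = s → bd X m y J = 0) →
    ∃ z : Finset ℕ → M, (∀ I ⊆ range m, I.card = s + 1 → z I ∈ G (K - dI d I)) ∧
      ∀ I ⊆ range m, I.card = s → bd X m z I = y I

variable {X G d}

/-- `y ∈ (x_0, …, x_{m-1})` as an exactness statement -/
theorem exists_bd_zero {m : ℕ} {K : ℤ} {w : ℕ → M} (hw : ∀ l < m, w l ∈ G (K - d l)) :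
    ∃ z : Finset ℕ → M, (∀ I ⊆ range m, I.card = 1 → z I ∈ G (K - dI d I)) ∧
      bd X m z ∅ = ∑ l ∈ range m, X l (w l) := by
  refine ⟨fun I => w (I.sup id), fun I hI hI1 => ?_, ?_⟩
  · obtain ⟨l, rfl⟩ := card_eq_one.1 hI1
    rw [dI, sum_singleton]
    change w (({l} : Finset ℕ).sup id) ∈ _
    rw [sup_singleton]
    exact hw l (by simpa using hI)
  · rw [bd, sdiff_empty]
    refine sum_congr rfl fun l _ => ?_
    rw [insert_empty_eq, sg_singleton, one_smul, sup_singleton]
    rfl

theorem claimB_succ (hX : ∀ l k y, y ∈ G k → X l y ∈ G (k + d l))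
    (hcomm : ∀ i l y, X i (X l y) = X l (X i y)) {s m : ℕ} (ih : ClaimB X G d (s + 1) m)
    (ih' : ∀ (K : ℤ) (y : Finset ℕ → M), (∀ J ⊆ range m, J.card = s → y J ∈ G (K - dI d J)) →
      (∀ u : Finset ℕ → M, (∀ I ⊆ range m, I.card = s + 1 → u I ∈ G (K + d m - dI d I)) →
        (∀ J ⊆ range m, J.card = s → bd X m u J + (-1 : ℤ) ^ s • X m (y J) = 0) →
        (∀ J ⊆ range m, J.card + 1 = s → bd X m y J = 0) →
      ∃ z : Finset ℕ → M, (∀ I ⊆ range m, I.card = s + 1 → z I ∈ G (K - dI d I)) ∧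
        ∀ J ⊆ range m, J.card = s → bd X m z J = y J)) :
    ClaimB X G d (s + 1) (m + 1) := by
  have hsub : ∀ {I : Finset ℕ}, I ⊆ range m → insert m I ⊆ range (m + 1) := by
    intro I hI j hj
    rw [mem_insert] at hj
    rcases hj with rfl | hj
    · simp
    · have := hI hj
      rw [mem_range] at this ⊢
      omega
  have hsub' : ∀ {I : Finset ℕ}, I ⊆ range (m + 1) → m ∉ I → I ⊆ range m := by
    intro I hI hm j hj
    have h1 := hI hj
    have h2 : j ≠ m := fun e => hm (e ▸ hj)
    rw [mem_range] at h1 ⊢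
    omega
  have hr : range m ⊆ range (m + 1) := range_subset_range.2 (Nat.le_succ m)
  intro K y hy hb
  obtain ⟨z', hz', hbz'⟩ := ih' (K - d m) (fun J => y (insert m J)) (fun J hJ hJs => by
      have hm := not_mem_of_subset_range hJ
      have := hy _ (hsub hJ) (by rw [card_insert_of_notMem hm, hJs])
      rwa [dI_insert d hm, ← sub_sub] at this) y (fun I hI hIs => by
      rw [sub_add_cancel]
      exact hy I (hI.trans hr) hIs) (fun J hJ hJs => by
      have := hb J (hJ.trans hr) (by rw [hJs])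
      rwa [bd_succ_of_subset X hJ, hJs] at this) (fun J hJ hJs => by
      have hm := not_mem_of_subset_range hJ
      have := hb _ (hsub hJ) (by rw [card_insert_of_notMem hm, hJs])
      rwa [bd_insert X hJ] at this)
  obtain ⟨z1, hz1, hbz1⟩ := ih K (fun I => y I - (-1 : ℤ) ^ (s + 1) • X m (z' I))
    (fun I hI hIs => by
      refine sub_mem (hy I (hI.trans hr) hIs) (AddSubgroup.zsmul_mem _ ?_ _)
      have := hX m _ _ (hz' I hI hIs)
      rwa [show K - d m - dI d I + d m = K - dI d I by ring] at this) (fun J hJ hJs => by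
      have hJs' : J.card = s := by omega
      have h1 : bd X m (fun I => (-1 : ℤ) ^ (s + 1) • X m (z' I)) J =
          (-1 : ℤ) ^ (s + 1) • X m (bd X m z' J) := by
        rw [bd, bd, map_sum, smul_sum]
        refine sum_congr rfl fun l hl => ?_
        rw [map_zsmul, map_zsmul, hcomm l m, smul_comm]
      have h2 := hb J (hJ.trans hr) (by rw [hJs'])
      rw [bd_succ_of_subset X hJ, hJs'] at h2
      rw [bd_sub, h1, hbz' J hJ hJs', pow_succ, mul_neg_one, neg_smul, sub_neg_eq_add]
      exact h2)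
  refine ⟨fun I => if m ∈ I then z' (I.erase m) else z1 I, fun I hI hIs => ?_,
    fun I hI hIs => ?_⟩
  · by_cases hm : m ∈ I
    · simp only [if_pos hm]
      have h1 := hz' (I.erase m) (hsub' ((erase_subset m I).trans hI) (notMem_erase m I)) (by
        rw [card_erase_of_mem hm, hIs]
        rfl)
      rwa [sub_sub, dI_erase d hm] at h1
    · simp only [if_neg hm]
      exact hz1 I (hsub' hI hm) hIs
  · by_cases hm : m ∈ I
    · have hI' : I.erase m ⊆ range m :=
        hsub' ((erase_subset m I).trans hI) (notMem_erase m I)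
      have hc' : (I.erase m).card = s := by rw [card_erase_of_mem hm, hIs, Nat.add_sub_cancel]
      have h1 := hbz' _ hI' hc'
      rw [insert_erase hm] at h1
      rw [← h1]
      conv_lhs => rw [← insert_erase hm]
      rw [bd_insert X hI']
      refine bd_congr X fun l hl hl' => ?_
      have hml : m ∉ insert l (I.erase m) := by
        rw [mem_insert, not_or]
        exact ⟨hl.ne', notMem_erase m I⟩
      rw [if_pos (mem_insert_self _ _), erase_insert hml]
    · have hI' := hsub' hI hm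
      rw [bd_succ_of_subset X hI', if_pos (mem_insert_self _ _), erase_insert hm, hIs]
      have h1 : bd X m (fun I => if m ∈ I then z' (I.erase m) else z1 I) I = bd X m z1 I := by
        refine bd_congr X fun l hl _ => if_neg ?_
        rw [mem_insert, not_or]
        exact ⟨hl.ne', hm⟩
      rw [h1, hbz1 I hI' hIs, sub_add_cancel]

/-- **Exactness of the Koszul complex of a regular sequence.** -/
theorem claimB (hX : ∀ l k y, y ∈ G k → X l y ∈ G (k + d l))
    (hcomm : ∀ i l y, X i (X l y) = X l (X i y))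
    (hreg : ∀ (m : ℕ) (k : ℤ) (y : M), y ∈ G k → ∀ w : ℕ → M, (∀ l < m, w l ∈ G (k + d m - d l)) →
      X m y = ∑ l ∈ range m, X l (w l) →
      ∃ w' : ℕ → M, (∀ l < m, w' l ∈ G (k - d l)) ∧ y = ∑ l ∈ range m, X l (w' l)) (s m : ℕ) :
    ClaimB X G d (s + 1) m := by
  induction m generalizing s with
  | zero =>
    intro K y hy hb
    refine ⟨fun _ => 0, fun _ _ _ => zero_mem _, fun I hI hIs => ?_⟩
    rw [range_zero, subset_empty] at hI
    subst hI
    rw [card_empty] at hIs
    omega
  | succ m ihm =>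
    cases s with
    | zero =>
      refine claimB_succ hX hcomm (ihm 0) fun K y hy u hu h1 _ => ?_
      have hy0 := hy ∅ (empty_subset _) card_empty
      rw [dI, sum_empty, sub_zero] at hy0
      have h0 := h1 ∅ (empty_subset _) card_empty
      rw [pow_zero, one_smul, bd, sdiff_empty] at h0
      obtain ⟨w', hw', hyw⟩ := hreg m K (y ∅) hy0 (fun l => -u {l}) (fun l hl => by
        have := hu {l} (by simpa using hl) (card_singleton l)
        rw [dI, sum_singleton] at this
        exact neg_mem this) (by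
        rw [eq_neg_of_add_eq_zero_right h0, ← sum_neg_distrib]
        refine sum_congr rfl fun l _ => ?_
        rw [insert_empty_eq, sg_singleton, one_smul, map_neg])
      obtain ⟨z, hz, hbz⟩ := exists_bd_zero (X := X) (G := G) hw'
      refine ⟨z, fun I hI hIs => hz I hI (by omega), fun J hJ hJs => ?_⟩
      have hJ0 : J = ∅ := card_eq_zero.1 hJs
      rw [hJ0, hbz, hyw]
    | succ s =>
      refine claimB_succ hX hcomm (ihm (s + 1)) fun K y hy u hu h1 h2 => ?_
      exact ihm s K y hy h2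

end

end Vale.Agent.P221.H903
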