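import Vale.Agent.P221.H903.K2

/-!
# P221, part (T1'): combinatorics of signs and graded groups

* `sum_sg_sg` : the cancellation behind `D ∘ D = 0`;
* `sum_powersetCard_erase` : reindexing of the boundary;
* `GH` : a graded group with commuting operators, as a group with operators on the product.
-/

namespace Vale.Agent.P221.H903

open Finset

theorem sg_erase_of_lt {I : Finset ℕ} {i l : ℕ} (hi : i ∈ I) (h : i < l) :
    sg (I.erase i) l = -sg I l := by
  have h1 : (I.erase i).filter (· < l) = (I.filter (· < l)).erase i := by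
    ext j
    simp only [mem_filter, mem_erase]
    tauto
  have h2 : i ∈ I.filter (· < l) := mem_filter.2 ⟨hi, h⟩
  obtain ⟨c, hc⟩ : ∃ c, (I.filter (· < l)).card = c + 1 :=
    ⟨_, (Nat.succ_pred_eq_of_pos (card_pos.2 ⟨i, h2⟩)).symm⟩
  rw [sg, sg, h1, card_erase_of_mem h2, hc, Nat.add_sub_cancel, pow_succ, mul_neg_one, neg_neg]

theorem sg_erase_of_ge {I : Finset ℕ} {i l : ℕ} (h : l ≤ i) : sg (I.erase i) l = sg I l := by
  have h1 : (I.erase i).filter (· < l) = I.filter (· < l) := by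
    ext j
    simp only [mem_filter, mem_erase]
    constructor
    · rintro ⟨⟨-, h2⟩, h3⟩
      exact ⟨h2, h3⟩
    · rintro ⟨h2, h3⟩
      exact ⟨⟨by omega, h2⟩, h3⟩
  rw [sg, sg, h1]

theorem sg_mul_sg {I : Finset ℕ} {i l : ℕ} (hi : i ∈ I) (hl : l ∈ I) (h : i ≠ l) :
    sg I i * sg (I.erase i) l = -(sg I l * sg (I.erase l) i) := by
  rcases lt_or_gt_of_ne h with h | h
  · rw [sg_erase_of_lt hi h, sg_erase_of_ge h.le]
    ring
  · rw [sg_erase_of_lt hl h, sg_erase_of_ge h.le]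
    ring

/-- the cancellation behind `D ∘ D = 0` -/
theorem sum_sg_sg {A : Type*} [AddCommGroup A] (I : Finset ℕ) (f : ℕ → ℕ → A)
    (hf : ∀ i ∈ I, ∀ l ∈ I, f i l = f l i) :
    ∑ i ∈ I, ∑ l ∈ I.erase i, (sg I i * sg (I.erase i) l) • f i l = 0 := by
  classical
  rw [sum_sigma']
  refine sum_involution (fun x _ => ⟨x.2, x.1⟩) ?_ ?_ ?_ ?_
  · rintro ⟨i, l⟩ h
    simp only [mem_sigma, mem_erase] at h
    obtain ⟨hi, hli, hl⟩ := h
    change (sg I i * sg (I.erase i) l) • f i l + (sg I l * sg (I.erase l) i) • f l i = 0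
    rw [sg_mul_sg hi hl (Ne.symm hli), hf i hi l hl, neg_smul, neg_add_cancel]
  · rintro ⟨i, l⟩ h _ he
    simp only [mem_sigma, mem_erase] at h
    simp only [Sigma.mk.injEq] at he
    exact h.2.1 he.1
  · rintro ⟨i, l⟩ h
    simp only [mem_sigma, mem_erase] at h ⊢
    exact ⟨h.2.2, Ne.symm h.2.1, h.1⟩
  · rintro ⟨i, l⟩ h
    rfl

/-- the subsets of cardinality `c` of `range m` -/
abbrev pws (c m : ℕ) : Finset (Finset ℕ) := powersetCard c (range m)

theorem mem_pws {c m : ℕ} {J : Finset ℕ} : J ∈ pws c m ↔ J ⊆ range m ∧ J.card = c :=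
  mem_powersetCard

/-- reindexing of the boundary -/
theorem sum_pws_erase {A : Type*} [AddCommMonoid A] (c m : ℕ) (F : Finset ℕ → ℕ → A) :
    ∑ I ∈ pws (c + 1) m, ∑ l ∈ I, F I l =
      ∑ J ∈ pws c m, ∑ l ∈ range m \ J, F (insert l J) l := by
  classical
  rw [sum_sigma', sum_sigma']
  refine sum_bij' (fun x _ => ⟨x.1.erase x.2, x.2⟩) (fun x _ => ⟨insert x.2 x.1, x.2⟩) ?_ ?_ ?_ ?_ ?_
  · rintro ⟨I, l⟩ h
    simp only [mem_sigma, mem_pws] at h
    obtain ⟨⟨hI, hc⟩, hl⟩ := h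
    simp only [mem_sigma, mem_pws, mem_sdiff, mem_erase]
    exact ⟨⟨(erase_subset l I).trans hI, by rw [card_erase_of_mem hl, hc, Nat.add_sub_cancel]⟩,
      hI hl, fun h => h.1 rfl⟩
  · rintro ⟨J, l⟩ h
    simp only [mem_sigma, mem_pws, mem_sdiff] at h
    obtain ⟨⟨hJ, hc⟩, hl, hlJ⟩ := h
    simp only [mem_sigma, mem_pws]
    refine ⟨⟨?_, by rw [card_insert_of_notMem hlJ, hc]⟩, mem_insert_self _ _⟩
    intro j hj
    rcases mem_insert.1 hj with rfl | hj
    · exact hl
    · exact hJ hj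
  · rintro ⟨I, l⟩ h
    simp only [mem_sigma] at h
    simp only [insert_erase h.2]
  · rintro ⟨J, l⟩ h
    simp only [mem_sigma, mem_sdiff] at h
    simp only [erase_insert h.2.2]
  · rintro ⟨I, l⟩ h
    simp only [mem_sigma] at h
    simp only [insert_erase h.2]

/-! ### coboundaries -/

theorem map_cob {M M' : Type*} [AddCommGroup M] [AddCommGroup M'] {X : ℕ → M →+ M}
    {X' : ℕ → M' →+ M'} (f : M →+ M') (hf : ∀ l a, f (X l a) = X' l (f a)) (φ : Finset ℕ → M)
    (I : Finset ℕ) : f (cob X φ I) = cob X' (fun J => f (φ J)) I := by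
  rw [cob, cob, map_sum]
  refine sum_congr rfl fun l _ => ?_
  rw [map_zsmul, hf]

/-- `D ∘ D = 0` -/
theorem cob_cob {M : Type*} [AddCommGroup M] {X : ℕ → M →+ M}
    (hcomm : ∀ i l y, X i (X l y) = X l (X i y)) (φ : Finset ℕ → M) (I : Finset ℕ) :
    cob X (cob X φ) I = 0 := by
  have h := sum_sg_sg I (fun i l => X i (X l (φ ((I.erase i).erase l)))) fun i _ l _ => by
    rw [hcomm, erase_right_comm]
  rw [← h, cob]
  refine sum_congr rfl fun i _ => ?_
  rw [cob, map_sum, smul_sum]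
  refine sum_congr rfl fun l _ => ?_
  rw [map_zsmul, smul_smul]

theorem cob_mem {M : Type*} [AddCommGroup M] {X : ℕ → M →+ M} {G : ℤ → AddSubgroup M}
    {d : ℕ → ℤ} (hX : ∀ l k y, y ∈ G k → X l y ∈ G (k + d l)) {φ : Finset ℕ → M} {c : ℤ}
    {I : Finset ℕ} (hφ : ∀ l ∈ I, φ (I.erase l) ∈ G (dI d (I.erase l) + c)) :
    cob X φ I ∈ G (dI d I + c) := by
  refine AddSubgroup.sum_mem _ fun l hl => AddSubgroup.zsmul_mem _ ?_ _
  have h1 := hX l _ _ (hφ l hl)
  rwa [show dI d (I.erase l) + c + d l = dI d I + c by rw [← dI_erase d hl]; ring] at h1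

theorem bd_mem {M : Type*} [AddCommGroup M] {X : ℕ → M →+ M} {G : ℤ → AddSubgroup M}
    {d : ℕ → ℤ} (hX : ∀ l k y, y ∈ G k → X l y ∈ G (k + d l)) {z : Finset ℕ → M} {K c : ℤ} {m : ℕ}
    {J : Finset ℕ} (hz : ∀ l, l ∉ J → z (insert l J) ∈ G (K - (dI d (insert l J) + c))) :
    bd X m z J ∈ G (K - (dI d J + c)) := by
  refine AddSubgroup.sum_mem _ fun l hl => AddSubgroup.zsmul_mem _ ?_ _
  have hl' := (mem_sdiff.1 hl).2
  have h1 := hX l _ _ (hz l hl')
  rwa [show K - (dI d (insert l J) + c) + d l = K - (dI d J + c) by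
    rw [dI_insert d hl']; ring] at h1

/-! ### graded groups with operators -/

section graded

variable {H : ℤ → Type*} [∀ k, AddCommGroup (H k)] {d : ℕ → ℤ}

/-- the elements of degree `k` -/
def gsub (H : ℤ → Type*) [∀ k, AddCommGroup (H k)] (k : ℤ) : AddSubgroup (∀ k, H k) where
  carrier := {f | ∀ k', k' ≠ k → f k' = 0}
  zero_mem' := fun _ _ => rfl
  add_mem' := fun {a b} ha hb k' hk => by rw [Pi.add_apply, ha k' hk, hb k' hk, add_zero]
  neg_mem' := fun {a} ha k' hk => by rw [Pi.neg_apply, ha k' hk, neg_zero]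

theorem mem_gsub {k : ℤ} {f : ∀ k, H k} : f ∈ gsub H k ↔ ∀ k', k' ≠ k → f k' = 0 := Iff.rfl

theorem single_mem (k : ℤ) (x : H k) : (Pi.single k x : ∀ k, H k) ∈ gsub H k :=
  fun _ hk => Pi.single_eq_of_ne hk x

theorem eq_single {k : ℤ} {f : ∀ k, H k} (hf : f ∈ gsub H k) : f = Pi.single k (f k) := by
  funext k'
  by_cases h : k' = k
  · subst h
    rw [Pi.single_eq_same]
  · rw [Pi.single_eq_of_ne h, hf k' h]

theorem gsub_ext {k : ℤ} {f g : ∀ k, H k} (hf : f ∈ gsub H k) (hg : g ∈ gsub H k)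
    (h : f k = g k) : f = g := by
  rw [eq_single hf, eq_single hg, h]

variable (A : ∀ (l : ℕ) {k k' : ℤ}, k + d l = k' → H k →+ H k')

/-- the operators on the product -/
def xop (l : ℕ) : (∀ k, H k) →+ (∀ k, H k) where
  toFun f k := A l (sub_add_cancel k (d l)) (f (k - d l))
  map_zero' := by
    funext k
    exact map_zero _
  map_add' f g := by
    funext k
    exact map_add _ _ _

theorem xop_apply (l : ℕ) (f : ∀ k, H k) {k k' : ℤ} (h : k + d l = k') :
    xop A l f k' = A l h (f k) := by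
  obtain rfl : k = k' - d l := by omega
  rfl

theorem xop_mem (l : ℕ) {k : ℤ} {f : ∀ k, H k} (hf : f ∈ gsub H k) :
    xop A l f ∈ gsub H (k + d l) := by
  intro k' hk
  rw [xop_apply A l f (sub_add_cancel k' (d l)), hf _ (by omega), map_zero]

theorem xop_single (l : ℕ) {k k' : ℤ} (h : k + d l = k') (x : H k) :
    xop A l (Pi.single k x) = Pi.single k' (A l h x) := by
  subst h
  refine gsub_ext (xop_mem A l (single_mem k x)) (single_mem _ _) ?_
  rw [xop_apply A l _ rfl, Pi.single_eq_same, Pi.single_eq_same]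

theorem xop_comm (hA : ∀ (i l : ℕ) {k k₁ k₂ k' : ℤ} (h₁ : k + d i = k₁) (h₁' : k₁ + d l = k')
      (h₂ : k + d l = k₂) (h₂' : k₂ + d i = k') (x : H k),
      A l h₁' (A i h₁ x) = A i h₂' (A l h₂ x)) (i l : ℕ) (f : ∀ k, H k) :
    xop A i (xop A l f) = xop A l (xop A i f) := by
  funext k
  have h1 : k - d i - d l + d l = k - d i := by ring
  have h2 : k - d i + d i = k := by ring
  have h3 : k - d i - d l + d i = k - d l := by ring
  have h4 : k - d l + d l = k := by ring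
  rw [xop_apply A i _ h2, xop_apply A l _ h1, xop_apply A l _ h4, xop_apply A i _ h3,
    hA l i h1 h2 h3 h4]

end graded

end Vale.Agent.P221.H903
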