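import Vale.Agent.P221.T.H520.Lifts
import Vale.Agent.P221.H903.K1
import Vale.Agent.P221.H903.K3

/-!
# P221, part (T1'): graded maps, pairing with the homotopy mod `p`, completed free objects

* `fm F a` : the image of a graded map under a functor commuting with the shift, `tm C a` the one
  for `- ⊗ C`;
* `pair C k z a` : the pairing of `z ∈ π_* (P ⊗ C)` with `a : P⟦e⟧ ⟶ Z`;
* `FreeOn p C P d n c Z` : `Z` is the completed sum of the `P⟦dI d J + n⟧`, `J` a finite subset of `ℕ`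
  with `c` elements; existence and shift.
-/

open CategoryTheory MonoidalCategory Limits Pretriangulated
open Vale.Agent.P251.T Vale.Agent.P251.S Vale.Agent.P221.H395 Vale.Agent.P221.T

set_option linter.unusedSectionVars false

universe v u

namespace Vale.Agent.P221.H903

section fm

variable {𝒯 : Type u} [Category.{v} 𝒯] [Preadditive 𝒯] [HasShift 𝒯 ℤ]
  [∀ n : ℤ, (shiftFunctor 𝒯 n).Additive] (F : 𝒯 ⥤ 𝒯) [F.CommShift ℤ]

/-- the image of a graded map -/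
noncomputable def fm {P Z : 𝒯} {e : ℤ} (a : P⟦e⟧ ⟶ Z) : (F.obj P)⟦e⟧ ⟶ F.obj Z :=
  (F.commShiftIso e).inv.app P ≫ F.map a

theorem fm_gc {P Q Y : 𝒯} {m k k' : ℤ} (h : k + m = k') (γ : P⟦m⟧ ⟶ Q) (a : Q⟦k⟧ ⟶ Y) :
    fm F (gc h γ a) = gc h (fm F γ) (fm F a) := by
  have h' : m + k = k' := by omega
  unfold fm gc
  rw [F.commShiftIso_add' h', Functor.CommShift.isoAdd'_inv_app]
  simp only [Functor.map_comp, Category.assoc]
  have h0 : F.map ((shiftFunctorAdd' 𝒯 m k k' h').inv.app P) ≫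
      F.map ((shiftFunctorAdd' 𝒯 m k k' h').hom.app P) = 𝟙 _ := by
    rw [← F.map_comp, Iso.inv_hom_id_app, CategoryTheory.Functor.map_id]
  rw [reassoc_of% h0]
  congr 2
  have h1 := (F.commShiftIso k).inv.naturality γ
  simp only [Functor.comp_map] at h1
  rw [← reassoc_of% h1]

theorem fm_comp {P Z Z' : 𝒯} {e : ℤ} (a : P⟦e⟧ ⟶ Z) (f : Z ⟶ Z') :
    fm F (a ≫ f) = fm F a ≫ F.map f := by
  simp only [fm, Functor.map_comp, Category.assoc]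

end fm

variable {𝒯 : Type u} [Category.{0} 𝒯] [Preadditive 𝒯] [HasZeroObject 𝒯]
    [HasShift 𝒯 ℤ] [∀ n : ℤ, (shiftFunctor 𝒯 n).Additive] [Pretriangulated 𝒯] [IsTriangulated 𝒯]
    [MonoidalCategory 𝒯] [SymmetricCategory 𝒯] [TensorTriangulated 𝒯] [MonoidalClosed 𝒯]
    [HasCoproducts.{0} 𝒯] [HasProducts.{0} 𝒯] [StableCat 𝒯]

/-- the image of a graded map under `- ⊗ C` -/
noncomputable def tm (C : 𝒯) {P Z : 𝒯} {e : ℤ} (a : P⟦e⟧ ⟶ Z) : (P ⊗ C)⟦e⟧ ⟶ Z ⊗ C :=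
  fm (tensorRight C) a

variable (C : 𝒯)

theorem tm_gc {P Q Y : 𝒯} {m k k' : ℤ} (h : k + m = k') (γ : P⟦m⟧ ⟶ Q) (a : Q⟦k⟧ ⟶ Y) :
    tm C (gc h γ a) = gc h (tm C γ) (tm C a) := fm_gc (tensorRight C) h γ a

theorem tm_comp {P Z Z' : 𝒯} {e : ℤ} (a : P⟦e⟧ ⟶ Z) (f : Z ⟶ Z') :
    tm C (a ≫ f) = tm C a ≫ f ▷ C := fm_comp (tensorRight C) a f

theorem tm_zero {P Z : 𝒯} {e : ℤ} : tm C (0 : P⟦e⟧ ⟶ Z) = 0 := by
  unfold tm fm
  rw [Functor.map_zero, comp_zero]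

theorem tm_add {P Z : 𝒯} {e : ℤ} (a b : P⟦e⟧ ⟶ Z) : tm C (a + b) = tm C a + tm C b := by
  unfold tm fm
  rw [Functor.map_add, Preadditive.comp_add]

/-- `tm C (𝟙 _)` is an isomorphism -/
theorem tm_id {Z : 𝒯} (e : ℤ) : tm C (𝟙 (Z⟦e⟧)) = (((tensorRight C).commShiftIso e).app Z).inv := by
  unfold tm fm
  rw [CategoryTheory.Functor.map_id]
  exact Category.comp_id _

instance isIso_tm_id {Z : 𝒯} (e : ℤ) : IsIso (tm C (𝟙 (Z⟦e⟧))) := by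
  rw [tm_id]
  infer_instance

/-- the homotopy of `P ⊗ C` -/
abbrev HH (C P : 𝒯) (k : ℤ) : Type := (𝟙_ 𝒯)⟦k⟧ ⟶ P ⊗ C

variable {P : 𝒯} {C}

/-- the pairing of the homotopy of `P ⊗ C` with maps `P⟦e⟧ ⟶ Z` -/
noncomputable def pair {Z : 𝒯} {e : ℤ} (k : ℤ) (z : ∀ k, HH C P k) (a : P⟦e⟧ ⟶ Z) : HH C Z k :=
  gc (by ring : e + (k - e) = k) (z (k - e)) (tm C a)

theorem pair_eq {Z : 𝒯} {e k k' : ℤ} (h : e + k' = k) (z : ∀ k, HH C P k) (a : P⟦e⟧ ⟶ Z) :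
    pair k z a = gc h (z k') (tm C a) := by
  obtain rfl : k' = k - e := by omega
  rfl

/-- the pairing, additive in the first variable -/
noncomputable def pairL {Z : 𝒯} {e : ℤ} (k : ℤ) (a : P⟦e⟧ ⟶ Z) : (∀ k, HH C P k) →+ HH C Z k where
  toFun z := pair k z a
  map_zero' := gc_zero_left _ _
  map_add' _ _ := gc_add_left _ _ _ _

/-- the pairing, additive in the second variable -/
noncomputable def pairR {Z : 𝒯} {e : ℤ} (k : ℤ) (z : ∀ k, HH C P k) : (P⟦e⟧ ⟶ Z) →+ HH C Z k where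
  toFun a := pair k z a
  map_zero' := by
    unfold pair
    rw [tm_zero, gc_zero_right]
  map_add' _ _ := by
    unfold pair
    rw [tm_add, gc_add_right]

theorem pairL_apply {Z : 𝒯} {e : ℤ} (k : ℤ) (z : ∀ k, HH C P k) (a : P⟦e⟧ ⟶ Z) :
    pairL k a z = pair k z a := rfl

theorem pairR_apply {Z : 𝒯} {e : ℤ} (k : ℤ) (z : ∀ k, HH C P k) (a : P⟦e⟧ ⟶ Z) :
    pairR k z a = pair k z a := rfl

theorem pair_zero_left {Z : 𝒯} {e : ℤ} (k : ℤ) (a : P⟦e⟧ ⟶ Z) :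
    pair k (0 : ∀ k, HH C P k) a = 0 := map_zero (pairL k a)

theorem pair_zero_right {Z : 𝒯} {e : ℤ} (k : ℤ) (z : ∀ k, HH C P k) :
    pair k z (0 : P⟦e⟧ ⟶ Z) = 0 := map_zero (pairR k z)

theorem pair_comp {Z Z' : 𝒯} {e : ℤ} (k : ℤ) (z : ∀ k, HH C P k) (a : P⟦e⟧ ⟶ Z) (f : Z ⟶ Z') :
    pair k z (a ≫ f) = pair k z a ≫ f ▷ C := by
  unfold pair
  rw [tm_comp, gc_comp]

theorem gc_pair {Z Z' : 𝒯} {e e' e'' k k' : ℤ} (h : e' + k = k') (h' : e' + e = e'')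
    (z : ∀ k, HH C P k) (a : P⟦e⟧ ⟶ Z) (b : Z⟦e'⟧ ⟶ Z') :
    gc h (pair k z a) (tm C b) = pair k' z (gc h' a b) := by
  rw [pair_eq (show e'' + (k - e) = k' by omega), tm_gc, pair]
  exact (gc_assoc (z (k - e)) (tm C a) (tm C b) h' (by omega) (by omega) h).symm

/-- the pairing with `𝟙 (P⟦e⟧)` is bijective -/
theorem pair_id_surj {e : ℤ} (k : ℤ) (y : HH C (P⟦e⟧) k) :
    ∃ z ∈ gsub (HH C P) (k - e), pair k z (𝟙 (P⟦e⟧)) = y := by
  obtain ⟨w, hw⟩ := gc_surj (show e + (k - e) = k by ring) (y ≫ inv (tm C (𝟙 (P⟦e⟧))))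
  refine ⟨Pi.single (k - e) w, single_mem _ _, ?_⟩
  rw [pair, gc_eq, Pi.single_eq_same, hw, Category.assoc, IsIso.inv_hom_id, Category.comp_id]

theorem pair_id_inj {e : ℤ} (k : ℤ) {z : ∀ k, HH C P k} (hz : pair k z (𝟙 (P⟦e⟧)) = 0) :
    z (k - e) = 0 := by
  rw [pair, gc_eq] at hz
  have h1 : gc (show e + (k - e) = k by ring) (z (k - e)) (𝟙 ((P ⊗ C)⟦e⟧)) = 0 :=
    (cancel_mono (tm C (𝟙 (P⟦e⟧)))).1 (hz.trans zero_comp.symm)
  refine gc_inj (show e + (k - e) = k by ring) ?_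
  rw [h1, gc_zero_left]

end Vale.Agent.P221.H903
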