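import Vale.Agent.P221.H903.K4

/-!
# P221, part (T1'): completed free objects

`FreeOn p C P d n c Z` : `Z` is the completed sum of the `P⟦dI d J + n⟧`, `J` a finite subset of `ℕ`
with `c` elements.
-/

open CategoryTheory MonoidalCategory Limits Pretriangulated
open Vale.Agent.P251.T Vale.Agent.P251.S Vale.Agent.P221.H395 Vale.Agent.P221.T

set_option linter.unusedSectionVars false

universe v u

namespace Vale.Agent.P221.H903

variable {𝒯 : Type u} [Category.{0} 𝒯] [Preadditive 𝒯] [HasZeroObject 𝒯]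
    [HasShift 𝒯 ℤ] [∀ n : ℤ, (shiftFunctor 𝒯 n).Additive] [Pretriangulated 𝒯] [IsTriangulated 𝒯]
    [MonoidalCategory 𝒯] [SymmetricCategory 𝒯] [TensorTriangulated 𝒯] [MonoidalClosed 𝒯]
    [HasCoproducts.{0} 𝒯] [HasProducts.{0} 𝒯] [StableCat 𝒯]

/-- `Z` is the completed sum of the `P⟦dI d J + n⟧`, `J.card = c`. -/
structure FreeOn (p : ℕ) (C P : 𝒯) (d : ℕ → ℤ) (n : ℤ) (c : ℕ) (Z : 𝒯) where
  /-- the inclusions -/
  ι : ∀ J : Finset ℕ, P⟦dI d J + n⟧ ⟶ Z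
  gen : ∀ (k : ℤ) (y : HH C Z k), ∃ (m : ℕ) (z : Finset ℕ → ∀ k, HH C P k),
    (∀ J, z J ∈ gsub (HH C P) (k - (dI d J + n))) ∧ y = ∑ J ∈ pws c m, pair k (z J) (ι J)
  indep : ∀ (k : ℤ) (m : ℕ) (z : Finset ℕ → ∀ k, HH C P k),
    ∑ J ∈ pws c m, pair k (z J) (ι J) = 0 → ∀ J ∈ pws c m, z J (k - (dI d J + n)) = 0
  desc : ∀ {Y : 𝒯}, PComplete p Y → ∀ a : ∀ J : Finset ℕ, P⟦dI d J + n⟧ ⟶ Y,
    ∃ f : Z ⟶ Y, ∀ J, J.card = c → ι J ≫ f = a J
  uniq : ∀ {Y : 𝒯}, PComplete p Y → ∀ f : Z ⟶ Y, (∀ J, J.card = c → ι J ≫ f = 0) → f = 0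
  pc : PComplete p Z

variable {p : ℕ} {C P : 𝒯} {d : ℕ → ℤ}

theorem subset_range_sup (J : Finset ℕ) : J ⊆ Finset.range (J.sup id + 1) := fun j hj => by
  rw [Finset.mem_range, Nat.lt_succ_iff]
  exact Finset.le_sup (f := id) hj

/-- completed free objects exist -/
theorem exists_freeOn (hC : ∃ (i : 𝟙_ 𝒯 ⟶ C) (δ : C ⟶ (𝟙_ 𝒯)⟦(1 : ℤ)⟧),
      Triangle.mk ((p : ℤ) • 𝟙 (𝟙_ 𝒯)) i δ ∈ distTriang 𝒯) (P : 𝒯) (d : ℕ → ℤ) (n : ℤ) (c : ℕ) :
    ∃ Z : 𝒯, Nonempty (FreeOn p C P d n c Z) := by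
  classical
  obtain ⟨i, δC, hC⟩ := hC
  let I : Type := {J : Finset ℕ // J.card = c}
  let X : I → 𝒯 := fun J => P⟦dI d J.1 + n⟧
  obtain ⟨L, l, hL, hl⟩ := exists_completion hC (∐ X)
  let ι : ∀ J : Finset ℕ, P⟦dI d J + n⟧ ⟶ L := fun J =>
    if h : J.card = c then Sigma.ι X ⟨J, h⟩ ≫ l else 0
  have hι : ∀ (J : Finset ℕ) (h : J.card = c), ι J = Sigma.ι X ⟨J, h⟩ ≫ l := fun J h => dif_pos h
  refine ⟨L, ⟨⟨ι, ?_, ?_, ?_, ?_, hL⟩⟩⟩
  · intro k y
    obtain ⟨s, g, hg⟩ := compact_sumR C X ⟨k, ⟨Iso.refl _⟩⟩ (y ≫ inv (l ▷ C))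
    choose w hw hwg using fun j => pair_id_surj k (g j)
    let z : Finset ℕ → ∀ k, HH C P k := fun J =>
      if h : J.card = c then if (⟨J, h⟩ : I) ∈ s then w ⟨J, h⟩ else 0 else 0
    have hz : ∀ (j : I), j ∈ s → z j.1 = w j := fun j hj => by
      simp only [z]
      rw [dif_pos j.2, if_pos hj]
    refine ⟨s.sup (fun j => j.1.sup id + 1), z, ?_, ?_⟩
    · intro J
      simp only [z]
      split_ifs with h1 h2
      · exact hw ⟨J, h1⟩
      · exact zero_mem _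
      · exact zero_mem _
    · have h1 : y = ∑ j ∈ s, pair k (z j.1) (ι j.1) := by
        rw [IsIso.comp_inv_eq, Preadditive.sum_comp] at hg
        rw [hg]
        refine Finset.sum_congr rfl fun j hj => ?_
        rw [hι j.1 j.2, hz j hj, ← hwg j, ← pair_comp, ← pair_comp, Category.id_comp]
      have h5 : ∑ J ∈ s.map (Function.Embedding.subtype _), pair k (z J) (ι J) =
          ∑ j ∈ s, pair k (z j.1) (ι j.1) := Finset.sum_map _ _ _
      rw [h1, ← h5]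
      refine Finset.sum_subset ?_ ?_
      · intro J hJ
        rw [Finset.mem_map] at hJ
        obtain ⟨j, hj, rfl⟩ := hJ
        rw [mem_pws]
        refine ⟨(subset_range_sup j.1).trans (Finset.range_subset_range.2 ?_), j.2⟩
        exact Finset.le_sup (f := fun j : I => j.1.sup id + 1) hj
      · intro J hJ hJ'
        rw [mem_pws] at hJ
        have h2 : (⟨J, hJ.2⟩ : I) ∉ s := fun h => hJ' (Finset.mem_map.2 ⟨_, h, rfl⟩)
        have h3 : z J = 0 := by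
          simp only [z]
          rw [dif_pos hJ.2, if_neg h2]
        rw [h3, pair_zero_left]
  · intro k m z hz J hJ
    have hJc := (mem_pws.1 hJ).2
    have h1 : ∑ K ∈ pws c m, pair k (z K)
        (if h : K.card = c then Sigma.ι X ⟨K, h⟩ else 0 : P⟦dI d K + n⟧ ⟶ ∐ X) = 0 := by
      rw [← cancel_mono (l ▷ C), zero_comp, ← hz, Preadditive.sum_comp]
      refine Finset.sum_congr rfl fun K hK => ?_
      rw [← pair_comp]
      congr 1
      have hKc := (mem_pws.1 hK).2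
      rw [dif_pos hKc, hι K hKc]
    have h2 : pair k (z J) (𝟙 (P⟦dI d J + n⟧)) = 0 := by
      have h3 := congrArg (fun y => y ≫ (Vale.Agent.P251.M.proj X ⟨J, hJc⟩ ▷ C)) h1
      simp only [zero_comp, Preadditive.sum_comp] at h3
      rw [Finset.sum_eq_single_of_mem J hJ, dif_pos hJc, ← pair_comp,
        Vale.Agent.P251.M.ι_proj_self] at h3
      · exact h3
      · intro K hK hKJ
        have hKc := (mem_pws.1 hK).2
        rw [dif_pos hKc, ← pair_comp, Vale.Agent.P251.M.ι_proj_of_ne, pair_zero_right]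
        intro h
        exact hKJ (congrArg Subtype.val h)
    exact pair_id_inj k h2
  · intro Y hY a
    obtain ⟨f, hf⟩ := (bij_of_isIso_mod hC l hl hY).surjective (Sigma.desc fun j : I => a j.1)
    refine ⟨f, fun J hJ => ?_⟩
    replace hf : l ≫ f = Sigma.desc fun j : I => a j.1 := hf
    rw [hι J hJ, Category.assoc, hf, Sigma.ι_desc]
  · intro Y hY f hf
    refine (bij_of_isIso_mod hC l hl hY).injective ?_
    rw [comp_zero]
    refine Sigma.hom_ext _ _ fun j => ?_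
    have h1 := hf j.1 j.2
    rw [hι j.1 j.2, Category.assoc] at h1
    rw [comp_zero]
    exact h1

namespace FreeOn

variable {n : ℤ} {c : ℕ} {Z : 𝒯} (𝔽 : FreeOn p C P d n c Z)

include 𝔽 in
theorem ext {Y : 𝒯} (hY : PComplete p Y) {f g : Z ⟶ Y} (h : ∀ J, J.card = c → 𝔽.ι J ≫ f = 𝔽.ι J ≫ g) :
    f = g := by
  rw [← sub_eq_zero]
  refine 𝔽.uniq hY _ fun J hJ => ?_
  rw [Preadditive.comp_sub, h J hJ, sub_self]

/-- the shift -/
noncomputable def shift : FreeOn p C P d (n + 1) c (Z⟦(1 : ℤ)⟧) where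
  ι J := gc (by ring : 1 + (dI d J + n) = dI d J + (n + 1)) (𝔽.ι J) (𝟙 (Z⟦(1 : ℤ)⟧))
  gen k y := by
    obtain ⟨y', hy'⟩ := gc_surj (show 1 + (k - 1) = k by ring) (y ≫ inv (tm C (𝟙 (Z⟦(1 : ℤ)⟧))))
    obtain ⟨m, z, hz, rfl⟩ := 𝔽.gen (k - 1) y'
    refine ⟨m, z, fun J => ?_, ?_⟩
    · have := hz J
      rwa [show k - 1 - (dI d J + n) = k - (dI d J + (n + 1)) by ring] at this
    · have h1 : y = gc (show 1 + (k - 1) = k by ring)
          (∑ J ∈ pws c m, pair (k - 1) (z J) (𝔽.ι J)) (tm C (𝟙 (Z⟦(1 : ℤ)⟧))) := by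
        rw [gc_eq, hy', Category.assoc, IsIso.inv_hom_id, Category.comp_id]
      rw [h1]
      have h2 := map_sum (AddMonoidHom.mk' (fun y => gc (show 1 + (k - 1) = k by ring) y
        (tm C (𝟙 (Z⟦(1 : ℤ)⟧)))) fun a b => gc_add_left _ _ _ _)
        (fun J => pair (k - 1) (z J) (𝔽.ι J)) (pws c m)
      refine Eq.trans h2 (Finset.sum_congr rfl fun J _ => ?_)
      exact gc_pair (show 1 + (k - 1) = k by ring) _ _ _ _
  indep k m z hz J hJ := by
    have h1 : ∑ J ∈ pws c m, pair (k - 1) (z J) (𝔽.ι J) = 0 := by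
      refine gc_inj (show 1 + (k - 1) = k by ring) ((cancel_mono (tm C (𝟙 (Z⟦(1 : ℤ)⟧)))).1 ?_)
      rw [← gc_eq, ← gc_eq, gc_zero_left, ← hz]
      have h2 := map_sum (AddMonoidHom.mk' (fun y => gc (show 1 + (k - 1) = k by ring) y
        (tm C (𝟙 (Z⟦(1 : ℤ)⟧)))) fun a b => gc_add_left _ _ _ _)
        (fun J => pair (k - 1) (z J) (𝔽.ι J)) (pws c m)
      refine Eq.trans h2 (Finset.sum_congr rfl fun J _ => ?_)
      exact gc_pair (show 1 + (k - 1) = k by ring) _ _ _ _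
    have h2 := 𝔽.indep (k - 1) m z h1 J hJ
    rwa [show k - 1 - (dI d J + n) = k - (dI d J + (n + 1)) by ring] at h2
  desc {Y} hY a := by
    let ε : (Y⟦(-1 : ℤ)⟧)⟦(1 : ℤ)⟧ ≅ Y := (shiftFunctorCompIsoId 𝒯 (-1 : ℤ) 1 (by simp)).app Y
    choose b hb using fun J => gc_surj (show 1 + (dI d J + n) = dI d J + (n + 1) by ring)
      (a J ≫ ε.inv)
    obtain ⟨f, hf⟩ := 𝔽.desc (hY.shift (-1)) b
    refine ⟨f⟦(1 : ℤ)⟧' ≫ ε.hom, fun J hJ => ?_⟩
    rw [← gc_comp, Category.id_comp, ← gc_map, hf J hJ, gc_eq, hb, Category.assoc,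
      Iso.inv_hom_id, Category.comp_id]
  uniq {Y} hY f hf := by
    let ε : (Y⟦(-1 : ℤ)⟧)⟦(1 : ℤ)⟧ ≅ Y := (shiftFunctorCompIsoId 𝒯 (-1 : ℤ) 1 (by simp)).app Y
    obtain ⟨g, hg⟩ := (shiftFunctor 𝒯 (1 : ℤ)).map_surjective (f ≫ ε.inv)
    have h1 : g = 0 := by
      refine 𝔽.uniq (hY.shift (-1)) g fun J hJ => ?_
      refine gc_inj (show 1 + (dI d J + n) = dI d J + (n + 1) by ring) ?_
      rw [gc_map, Category.comp_id, gc_zero_left, hg, gc_eq, ← Category.assoc, hf J hJ, zero_comp]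
    rw [← cancel_mono ε.inv, ← hg, h1, Functor.map_zero, zero_comp]
  pc := 𝔽.pc.shift 1

end FreeOn

theorem fm_zero_shift (F : 𝒯 ⥤ 𝒯) [F.CommShift ℤ] (e : ℤ) (he : e = 0) :
    fm F ((shiftFunctorZero' 𝒯 e he).hom.app P) = (shiftFunctorZero' 𝒯 e he).hom.app (F.obj P) := by
  unfold fm
  rw [F.commShiftIso_zero' ℤ e he, Functor.CommShift.isoZero'_inv_app, Category.assoc,
    ← F.map_comp, Iso.inv_hom_id_app]
  have h : F.map (𝟙 ((𝟭 𝒯).obj P)) = 𝟙 _ := F.map_id _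
  rw [h]
  exact Category.comp_id _

theorem tm_zero_shift (e : ℤ) (he : e = 0) : tm C ((shiftFunctorZero' 𝒯 e he).hom.app P) =
    (shiftFunctorZero' 𝒯 e he).hom.app (P ⊗ C) := fm_zero_shift (tensorRight C) e he

theorem pair_zero_shift (e : ℤ) (he : e = 0) (k : ℤ) (z : ∀ k, HH C P k) :
    pair k z ((shiftFunctorZero' 𝒯 e he).hom.app P) = z k := by
  subst he
  rw [pair_eq (zero_add k), tm_zero_shift]
  have h2 : (shiftFunctorZero' 𝒯 (0 : ℤ) rfl).hom.app (P ⊗ C) =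
      (shiftFunctorZero 𝒯 ℤ).hom.app (P ⊗ C) ≫ 𝟙 (P ⊗ C) := by
    simp [shiftFunctorZero']
  rw [h2, gc_zero_shift, Category.comp_id]

theorem dI_empty : dI d ∅ = 0 := Finset.sum_empty

theorem pws_zero (m : ℕ) : pws 0 m = {∅} := Finset.powersetCard_zero _

/-- `P` as a completed free object -/
noncomputable def freeOn_self (hP : PComplete p P) : FreeOn p C P d 0 0 P where
  ι J := if h : J = ∅ then
    (shiftFunctorZero' 𝒯 (dI d J + 0) (by rw [h, add_zero, dI_empty])).hom.app P else 0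
  gen k y := by
    have h0 : dI d ∅ + 0 = 0 := by rw [add_zero, dI_empty]
    refine ⟨0, fun J => if J = ∅ then Pi.single k y else 0, fun J => ?_, ?_⟩
    · dsimp only
      split_ifs with h
      · rw [h, h0, sub_zero]
        exact single_mem _ _
      · exact zero_mem _
    · rw [pws_zero, Finset.sum_singleton, dif_pos rfl, pair_zero_shift]
      beta_reduce
      rw [if_pos rfl, Pi.single_eq_same]
  indep k m z hz J hJ := by
    have h0 : dI d ∅ + 0 = 0 := by rw [add_zero, dI_empty]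
    rw [pws_zero, Finset.mem_singleton] at hJ
    subst hJ
    rw [pws_zero, Finset.sum_singleton, dif_pos rfl, pair_zero_shift] at hz
    rw [h0, sub_zero, hz]
  desc {Y} hY a := by
    have h0 : dI d ∅ + 0 = 0 := by rw [add_zero, dI_empty]
    refine ⟨(shiftFunctorZero' 𝒯 (dI d ∅ + 0) h0).inv.app P ≫ a ∅, fun J hJ => ?_⟩
    have hJ := Finset.card_eq_zero.1 hJ
    subst hJ
    rw [dif_pos rfl, Iso.hom_inv_id_app_assoc]
  uniq {Y} hY f hf := by
    have h0 : dI d ∅ + 0 = 0 := by rw [add_zero, dI_empty]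
    have h1 := hf ∅ rfl
    rw [dif_pos rfl] at h1
    rw [← cancel_epi ((shiftFunctorZero' 𝒯 (dI d ∅ + 0) h0).hom.app P), comp_zero]
    exact h1
  pc := hP

theorem freeOn_self_ι (hP : PComplete p P) : (freeOn_self hP : FreeOn p C P d 0 0 P).ι ∅ =
    (shiftFunctorZero' 𝒯 (dI d ∅ + 0) (by rw [add_zero, dI_empty])).hom.app P := by
  unfold freeOn_self
  dsimp only
  rw [dif_pos rfl]

end Vale.Agent.P221.H903
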