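import Vale.Agent.P221.H903.K5

/-!
# P221, part (T1'): the Koszul differentials

`IsKos x 𝔽 𝔾 D` : `D` is the Koszul differential from the sum over the sets with `c + 1` elements to
the sum over the sets with `c` elements.
-/

open CategoryTheory MonoidalCategory Limits Pretriangulated
open Vale.Agent.P251.T Vale.Agent.P251.S Vale.Agent.P221.H395 Vale.Agent.P221.T

set_option linter.unusedSectionVars false

universe v u

namespace Vale.Agent.P221.H903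

variable {𝒯 : Type u} [Category.{0} 𝒯] [Preadditive 𝒯] [HasZeroObject 𝒯]
    [HasShift 𝒯 ℤ] [∀ n : ℤ, (shiftFunctor 𝒯 n).Additive] [Pretriangulated 𝒯] [IsTriangulated 𝒯]
    [MonoidalCategory 𝒯] [SymmetricCategory 𝒯] [TensorTriangulated 𝒯] [MonoidalClosed 𝒯]
    [HasCoproducts.{0} 𝒯] [HasProducts.{0} 𝒯] [StableCat 𝒯]

variable {p : ℕ} {C P : 𝒯} {d : ℕ → ℤ}

/-! ### operators -/

/-- the maps `P⟦e⟧ ⟶ Y` -/
abbrev GM (P Y : 𝒯) (e : ℤ) : Type := P⟦e⟧ ⟶ Y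

section ops

variable (x : ∀ l, P⟦d l⟧ ⟶ P)

/-- composition with `x l` -/
noncomputable def xc (Y : 𝒯) (l : ℕ) {k k' : ℤ} (h : k + d l = k') : (P⟦k⟧ ⟶ Y) →+ (P⟦k'⟧ ⟶ Y) where
  toFun a := gc h (x l) a
  map_zero' := gc_zero_right _ _
  map_add' _ _ := gc_add_right _ _ _ _

/-- multiplication by `x l` on the homotopy of `P ⊗ C` -/
noncomputable def xh (C : 𝒯) (l : ℕ) {k k' : ℤ} (h : k + d l = k') : HH C P k →+ HH C P k' where
  toFun y := gc (by omega : d l + k = k') y (tm C (x l))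
  map_zero' := gc_zero_left _ _
  map_add' _ _ := gc_add_left _ _ _ _

theorem xc_apply {Y : 𝒯} {l : ℕ} {k k' : ℤ} (h : k + d l = k') (a : P⟦k⟧ ⟶ Y) :
    xc x Y l h a = gc h (x l) a := rfl

theorem xh_apply {l : ℕ} {k k' : ℤ} (h : k + d l = k') (h' : d l + k = k') (y : HH C P k) :
    xh x C l h y = gc h' y (tm C (x l)) := rfl

/-- the operators on graded maps to `Y` -/
noncomputable abbrev XC (Y : 𝒯) (l : ℕ) : (∀ e, GM P Y e) →+ (∀ e, GM P Y e) :=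
  xop (H := GM P Y) (fun l _ _ h => xc x Y l h) l

/-- the operators on the homotopy of `P ⊗ C` -/
noncomputable abbrev XH (C : 𝒯) (l : ℕ) : (∀ k, HH C P k) →+ (∀ k, HH C P k) :=
  xop (H := HH C P) (fun l _ _ h => xh x C l h) l

/-- the multiplications by the `x l` commute -/
def XComm : Prop := ∀ (i l : ℕ) {k : ℤ} (h : d i + d l = k) (h' : d l + d i = k),
  gc h (x l) (x i) = gc h' (x i) (x l)

variable {x}

theorem XC_comm (hx : XComm x) (Y : 𝒯) (i l : ℕ) (a : ∀ e, GM P Y e) :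
    XC x Y i (XC x Y l a) = XC x Y l (XC x Y i a) := by
  refine xop_comm _ (fun i l {k k₁ k₂ k'} h₁ h₁' h₂ h₂' a => ?_) i l a
  change gc h₁' (x l) (gc h₁ (x i) a) = gc h₂' (x i) (gc h₂ (x l) a)
  rw [gc_assoc (x l) (x i) a h₁ h₁' (k₂ := d i + d l) rfl (by omega),
    gc_assoc (x i) (x l) a h₂ h₂' (k₂ := d i + d l) (by omega) (by omega), hx i l rfl (by omega)]

theorem XH_comm (hx : XComm x) (C : 𝒯) (i l : ℕ) (a : ∀ k, HH C P k) :
    XH x C i (XH x C l a) = XH x C l (XH x C i a) := by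
  refine xop_comm _ (fun i l {k k₁ k₂ k'} h₁ h₁' h₂ h₂' a => ?_) i l a
  change gc (by omega : d l + k₁ = k') (gc (by omega : d i + k = k₁) a (tm C (x i))) (tm C (x l)) =
    gc (by omega : d i + k₂ = k') (gc (by omega : d l + k = k₂) a (tm C (x l))) (tm C (x i))
  rw [← gc_assoc a (tm C (x i)) (tm C (x l)) (k₁ := d i + d l) (by omega) (by omega) (by omega)
      (by omega),
    ← gc_assoc a (tm C (x l)) (tm C (x i)) (k₁ := d i + d l) (by omega) (by omega) (by omega)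
      (by omega), ← tm_gc, ← tm_gc, hx i l (by omega) (by omega)]

theorem XC_comp {Y Y' : 𝒯} (f : Y ⟶ Y') (l : ℕ) (a : ∀ e, GM P Y e) :
    (fun e => XC x Y l a e ≫ f) = XC x Y' l (fun e => a e ≫ f) := by
  funext e
  exact (gc_comp (sub_add_cancel e (d l)) (x l) (a (e - d l)) f).symm

/-- post-composition -/
def postc (P : 𝒯) {Y Y' : 𝒯} (f : Y ⟶ Y') : (∀ e, GM P Y e) →+ (∀ e, GM P Y' e) where
  toFun a e := a e ≫ f
  map_zero' := by
    funext e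
    exact zero_comp
  map_add' a b := by
    funext e
    exact Preadditive.add_comp _ _ _ _ _ _

theorem postc_XC {Y Y' : 𝒯} (f : Y ⟶ Y') (l : ℕ) (a : ∀ e, GM P Y e) :
    postc P f (XC x Y l a) = XC x Y' l (postc P f a) := XC_comp f l a

theorem postc_mem {Y Y' : 𝒯} (f : Y ⟶ Y') {k : ℤ} {a : ∀ e, GM P Y e}
    (ha : a ∈ gsub (GM P Y) k) : postc P f a ∈ gsub (GM P Y') k := by
  intro e he
  change a e ≫ f = 0
  rw [ha e he, zero_comp]

/-- the shift of graded maps -/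
noncomputable def shc (P Y : 𝒯) :
    (∀ e, GM P Y e) →+ (∀ e, GM P (Y⟦(1 : ℤ)⟧) e) where
  toFun a e := gc (by ring : 1 + (e - 1) = e) (a (e - 1)) (𝟙 (Y⟦(1 : ℤ)⟧))
  map_zero' := by
    funext e
    exact gc_zero_left _ _
  map_add' a b := by
    funext e
    exact gc_add_left _ _ _ _

theorem shc_apply {Y : 𝒯} (a : ∀ e, GM P Y e) {e e' : ℤ} (h : 1 + e = e') :
    shc P Y a e' = gc h (a e) (𝟙 (Y⟦(1 : ℤ)⟧)) := by
  obtain rfl : e = e' - 1 := by omega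
  rfl

theorem shc_XC {Y : 𝒯} (l : ℕ) (a : ∀ e, GM P Y e) :
    shc P Y (XC x Y l a) = XC x _ l (shc P Y a) := by
  funext e
  rw [shc_apply _ (show 1 + (e - 1) = e by ring),
    xop_apply _ l a (show e - 1 - d l + d l = e - 1 by ring),
    xop_apply _ l (shc P Y a) (show e - d l + d l = e by ring),
    shc_apply _ (show 1 + (e - 1 - d l) = e - d l by ring)]
  rw [xc_apply, xc_apply]
  exact (gc_assoc (x l) (a (e - 1 - d l)) (𝟙 _) _ _ _ _).symm

theorem shc_mem {Y : 𝒯} {k : ℤ} {a : ∀ e, GM P Y e} (ha : a ∈ gsub (GM P Y) k) :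
    shc P Y a ∈ gsub (GM P (Y⟦(1 : ℤ)⟧)) (k + 1) := by
  intro e he
  rw [shc_apply _ (show 1 + (e - 1) = e by ring), ha (e - 1) (by omega), gc_zero_left]

theorem shc_inj {Y : 𝒯} {a : ∀ e, GM P Y e} {e e' : ℤ} (h : 1 + e = e')
    (ha : shc P Y a e' = 0) : a e = 0 := by
  rw [shc_apply _ h] at ha
  refine gc_inj h ?_
  rw [ha, gc_zero_left]

theorem pair_xc {Z : 𝒯} {e e' : ℤ} (k : ℤ) (l : ℕ) (h : e + d l = e') (z : ∀ k, HH C P k)
    (a : P⟦e⟧ ⟶ Z) : pair k z (xc x Z l h a) = pair k (XH x C l z) a := by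
  change pair k z (gc h (x l) a) = _
  rw [pair, pair, tm_gc, xop_apply _ l z (show k - e' + d l = k - e by omega),
    xh_apply _ _ (show d l + (k - e') = k - e by omega)]
  exact gc_assoc (z (k - e')) (tm C (x l)) (tm C a) h (by omega) (by omega) (by omega)

end ops

/-! ### the Koszul differentials -/

section kos

variable {n : ℤ} {c : ℕ} {Z W V : 𝒯}

/-- the inclusions as graded maps -/
noncomputable def FreeOn.tot (𝔽 : FreeOn p C P d n c Z) (J : Finset ℕ) : ∀ e, GM P Z e :=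
  Pi.single (dI d J + n) (𝔽.ι J)

theorem FreeOn.tot_mem (𝔽 : FreeOn p C P d n c Z) (J : Finset ℕ) :
    𝔽.tot J ∈ gsub (GM P Z) (dI d J + n) := single_mem _ _

theorem FreeOn.tot_same (𝔽 : FreeOn p C P d n c Z) (J : Finset ℕ) :
    𝔽.tot J (dI d J + n) = 𝔽.ι J := Pi.single_eq_same _ _

theorem FreeOn.tot_shift (𝔽 : FreeOn p C P d n c Z) (J : Finset ℕ) :
    𝔽.shift.tot J = shc P Z (𝔽.tot J) := by
  refine gsub_ext (𝔽.shift.tot_mem J) ?_ ?_
  · rw [← add_assoc]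
    exact shc_mem (𝔽.tot_mem J)
  · rw [FreeOn.tot_same, shc_apply _ (show 1 + (dI d J + n) = dI d J + (n + 1) by ring),
      FreeOn.tot_same]
    rfl

theorem FreeOn.shift_ι (𝔽 : FreeOn p C P d n c Z) (J : Finset ℕ)
    (h : 1 + (dI d J + n) = dI d J + (n + 1)) : 𝔽.shift.ι J = gc h (𝔽.ι J) (𝟙 (Z⟦(1 : ℤ)⟧)) := rfl

variable (x : ∀ l, P⟦d l⟧ ⟶ P)

/-- `D` is the Koszul differential -/
def IsKos (𝔽 : FreeOn p C P d n (c + 1) Z) (𝔾 : FreeOn p C P d n c W) (D : Z ⟶ W) : Prop :=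
  ∀ I, I.card = c + 1 → 𝔽.ι I ≫ D = cob (XC x W) 𝔾.tot I (dI d I + n)

theorem exists_kos (𝔽 : FreeOn p C P d n (c + 1) Z) (𝔾 : FreeOn p C P d n c W) :
    ∃ D : Z ⟶ W, IsKos x 𝔽 𝔾 D :=
  𝔽.desc 𝔾.pc fun I => cob (XC x W) 𝔾.tot I (dI d I + n)

variable {x}

theorem XC_mem {Y : 𝒯} (l : ℕ) (k : ℤ) (y : ∀ e, GM P Y e) (hy : y ∈ gsub (GM P Y) k) :
    XC x Y l y ∈ gsub (GM P Y) (k + d l) := xop_mem _ l hy

theorem XH_mem (l : ℕ) (k : ℤ) (y : ∀ e, HH C P e) (hy : y ∈ gsub (HH C P) k) :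
    XH x C l y ∈ gsub (HH C P) (k + d l) := xop_mem _ l hy

variable {𝔽 : FreeOn p C P d n (c + 1) Z} {𝔾 : FreeOn p C P d n c W} {D : Z ⟶ W}

theorem IsKos.postc_tot (h : IsKos x 𝔽 𝔾 D) {I : Finset ℕ} (hI : I.card = c + 1) :
    postc P D (𝔽.tot I) = cob (XC x W) 𝔾.tot I := by
  refine gsub_ext (k := dI d I + n) (postc_mem D (𝔽.tot_mem I)) ?_ ?_
  · exact cob_mem XC_mem fun l _ => 𝔾.tot_mem _
  · change 𝔽.tot I (dI d I + n) ≫ D = _
    rw [FreeOn.tot_same, h I hI]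

theorem IsKos.shift (h : IsKos x 𝔽 𝔾 D) : IsKos x 𝔽.shift 𝔾.shift (D⟦(1 : ℤ)⟧') := by
  intro I hI
  have h1 : cob (XC x (W⟦(1 : ℤ)⟧)) 𝔾.shift.tot I = shc P W (cob (XC x W) 𝔾.tot I) := by
    rw [map_cob (shc P W) (fun l a => shc_XC l a)]
    congr 1
    funext J
    exact 𝔾.tot_shift J
  have h2 : 1 + (dI d I + n) = dI d I + (n + 1) := by ring
  rw [h1, shc_apply _ h2, ← h I hI, 𝔽.shift_ι I h2, ← gc_comp, Category.id_comp, gc_map,
    Category.comp_id]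

theorem IsKos.comp_zero {𝔾 : FreeOn p C P d n (c + 1) W} {𝔼 : FreeOn p C P d n c V}
    {𝔽 : FreeOn p C P d n (c + 1 + 1) Z} {D' : W ⟶ V} (hx : XComm x) (h : IsKos x 𝔽 𝔾 D)
    (h' : IsKos x 𝔾 𝔼 D') : D ≫ D' = 0 := by
  refine 𝔽.uniq 𝔼.pc _ fun I hI => ?_
  have h1 : postc P D' (postc P D (𝔽.tot I)) = 0 := by
    rw [h.postc_tot hI, map_cob (postc P D') (fun l a => postc_XC D' l a)]
    rw [cob_congr (φ' := cob (XC x V) 𝔼.tot), cob_cob (XC_comm hx V)]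
    intro l hl
    exact h'.postc_tot (by rw [Finset.card_erase_of_mem hl, hI]; rfl)
  have h2 := congrFun h1 (dI d I + n)
  change (𝔽.tot I (dI d I + n) ≫ D) ≫ D' = 0 at h2
  rwa [FreeOn.tot_same, Category.assoc] at h2

/-- the effect on the homotopy of `- ⊗ C` -/
theorem IsKos.pair (h : IsKos x 𝔽 𝔾 D) (k : ℤ) (m : ℕ) (z : Finset ℕ → ∀ k, HH C P k) :
    (∑ I ∈ pws (c + 1) m, pair k (z I) (𝔽.ι I)) ≫ D ▷ C =
      ∑ J ∈ pws c m, pair k (bd (XH x C) m z J) (𝔾.ι J) := by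
  have h1 : (∑ I ∈ pws (c + 1) m, Vale.Agent.P221.H903.pair k (z I) (𝔽.ι I)) ≫ D ▷ C =
      ∑ I ∈ pws (c + 1) m, ∑ l ∈ I,
        sg I l • Vale.Agent.P221.H903.pair k (XH x C l (z I)) (𝔾.ι (I.erase l)) := by
    rw [Preadditive.sum_comp]
    refine Finset.sum_congr rfl fun I hI => ?_
    rw [← pair_comp, h I (mem_pws.1 hI).2, cob, Finset.sum_apply, ← pairR_apply, map_sum]
    refine Finset.sum_congr rfl fun l hl => ?_
    rw [Pi.smul_apply, map_zsmul, pairR_apply]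
    congr 1
    have h3 : dI d (I.erase l) + n + d l = dI d I + n := by
      rw [← dI_erase d hl]
      ring
    rw [xop_apply _ l _ h3, FreeOn.tot_same, pair_xc]
  rw [h1, sum_pws_erase]
  refine Finset.sum_congr rfl fun J _ => ?_
  rw [← pairL_apply, bd, map_sum]
  refine Finset.sum_congr rfl fun l hl => ?_
  rw [map_zsmul, pairL_apply, Finset.erase_insert (Finset.mem_sdiff.1 hl).2]

end kos

end Vale.Agent.P221.H903
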