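import Vale.Agent.P221.H903.K6

/-!
# P221, part (T1'): the Koszul resolution and extension along `q : P ⟶ B`

`KHyp p C x q` : `P`, `B` are `p`-complete with even homotopy mod `p`, `q` is onto on the homotopy
mod `p` with kernel generated by the regular sequence `x`. `KHyp.extend` : maps `P ⟶ Y` killed by the
`x l` extend along `q` if `Y` is `p`-complete and the first Koszul cohomology of initial segments
vanishes for `Y`.
-/

open CategoryTheory MonoidalCategory Limits Pretriangulated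
open Vale.Agent.P251.T Vale.Agent.P251.S Vale.Agent.P221.H395 Vale.Agent.P221.T

set_option linter.unusedSectionVars false

universe v u

namespace Vale.Agent.P221.H903

variable {𝒯 : Type u} [Category.{0} 𝒯] [Preadditive 𝒯] [HasZeroObject 𝒯]
    [HasShift 𝒯 ℤ] [∀ n : ℤ, (shiftFunctor 𝒯 n).Additive] [Pretriangulated 𝒯] [IsTriangulated 𝒯]
    [MonoidalCategory 𝒯] [SymmetricCategory 𝒯] [TensorTriangulated 𝒯] [MonoidalClosed 𝒯]
    [HasCoproducts.{0} 𝒯] [HasProducts.{0} 𝒯] [StableCat 𝒯]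

variable {p : ℕ} {C P B : 𝒯} {d : ℕ → ℤ}

/-- the hypotheses on `q : P ⟶ B` and the sequence `x` -/
structure KHyp (p : ℕ) (C : 𝒯) (x : ∀ l, P⟦d l⟧ ⟶ P) (q : P ⟶ B) : Prop where
  pP : PComplete p P
  pB : PComplete p B
  comm : XComm x
  even : ∀ l, Even (d l)
  nonneg : ∀ l, 0 ≤ d l
  x_q : ∀ l, x l ≫ q = 0
  cP : Conc C 0 P
  cB : Conc C 0 B
  par : ∀ K, PComplete p K → Conc C 1 K → ∀ f : P ⟶ K, f = 0
  onto : ∀ (k : ℤ) (y : HH C B k), ∃ z : HH C P k, z ≫ q ▷ C = y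
  ker : ∀ (k : ℤ) (y : HH C P k), y ≫ q ▷ C = 0 → ∃ (m : ℕ) (w : ∀ l, HH C P (k - d l)),
    y = ∑ l ∈ Finset.range m, xh x C l (sub_add_cancel k (d l)) (w l)
  reg : ∀ (m : ℕ) (k : ℤ) (y : HH C P k) (w : ∀ l, HH C P (k + d m - d l)),
    xh x C m rfl y = ∑ l ∈ Finset.range m, xh x C l (sub_add_cancel (k + d m) (d l)) (w l) →
    ∃ w' : ∀ l, HH C P (k - d l),
      y = ∑ l ∈ Finset.range m, xh x C l (sub_add_cancel k (d l)) (w' l)

/-! ### parity -/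

/-- shifts of concentrated objects -/
theorem Conc.shiftZ {X : 𝒯} {s : ℤ} (h : Conc C s X) (e : ℤ) : Conc C (s + e) (X⟦e⟧) := by
  intro k hk f
  obtain ⟨w, hw⟩ := gc_surj (show e + (k - e) = k by ring) (f ≫ inv (tm C (𝟙 (X⟦e⟧))))
  have h1 : w = 0 := h (k - e) (by rwa [show k - e - s = k - (s + e) by ring]) w
  rw [h1, gc_zero_left] at hw
  have h2 := congrArg (fun y => y ≫ tm C (𝟙 (X⟦e⟧))) hw
  simp only [zero_comp, Category.assoc, IsIso.inv_hom_id, Category.comp_id] at h2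
  exact h2.symm

theorem eq_zero_of_par (par : ∀ K, PComplete p K → Conc C 1 K → ∀ f : P ⟶ K, f = 0) {K : 𝒯}
    (hK : PComplete p K) {s e : ℤ} (hc : Conc C s K) (he : Odd (s - e)) (f : P⟦e⟧ ⟶ K) : f = 0 := by
  let ε : (K⟦-e⟧)⟦e⟧ ≅ K := (shiftFunctorCompIsoId 𝒯 (-e) e (by ring)).app K
  obtain ⟨g, hg⟩ := (shiftFunctor 𝒯 e).map_surjective (f ≫ ε.inv)
  have h1 : g = 0 := par _ (hK.shift (-e)) ((hc.shiftZ (-e)).congr (by
    obtain ⟨r, hr⟩ := he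
    exact ⟨-r, by linarith⟩)) g
  rw [← cancel_mono ε.inv, ← hg, h1, Functor.map_zero, zero_comp]

theorem dI_even (hd : ∀ l, Even (d l)) (J : Finset ℕ) : Even (dI d J) :=
  Finset.sum_induction d Even (fun _ _ ha hb => ha.add hb) Even.zero fun l _ => hd l

theorem dI_nonneg (hd : ∀ l, 0 ≤ d l) (J : Finset ℕ) : 0 ≤ dI d J :=
  Finset.sum_nonneg fun l _ => hd l

theorem FreeOn.conc {n : ℤ} {c : ℕ} {Z : 𝒯} (𝔽 : FreeOn p C P d n c Z) (hd : ∀ l, Even (d l))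
    (hP : Conc C 0 P) : Conc C n Z := by
  intro k hk f
  obtain ⟨m, z, -, hf⟩ := 𝔽.gen k f
  rw [hf]
  refine Finset.sum_eq_zero fun J _ => ?_
  have h1 : z J (k - (dI d J + n)) = 0 := hP _ (by
    have := hk.sub_even (dI_even hd J)
    rwa [show k - (dI d J + n) - 0 = k - n - dI d J by ring]) _
  rw [pair, h1, gc_zero_left]

theorem FreeOn.par {n : ℤ} {c : ℕ} {Z : 𝒯} (𝔽 : FreeOn p C P d n c Z) (hd : ∀ l, Even (d l))
    (hP : ∀ K, PComplete p K → Conc C 1 K → ∀ f : P ⟶ K, f = 0) {K : 𝒯} (hK : PComplete p K)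
    {s : ℤ} (hs : Odd (s - n)) (hc : Conc C s K) (f : Z ⟶ K) : f = 0 := by
  refine 𝔽.uniq hK f fun J _ => eq_zero_of_par hP hK hc ?_ _
  have := hs.sub_even (dI_even hd J)
  rwa [show s - (dI d J + n) = s - n - dI d J by ring]

/-! ### exactness on the homotopy mod `p` -/

section exact

variable {x : ∀ l, P⟦d l⟧ ⟶ P} {q : P ⟶ B} (H : KHyp p C x q)

include H

theorem KHyp.reg' (m : ℕ) (k : ℤ) (y : ∀ k, HH C P k) (hy : y ∈ gsub (HH C P) k)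
    (w : ℕ → ∀ k, HH C P k) (_hw : ∀ l < m, w l ∈ gsub (HH C P) (k + d m - d l))
    (h : XH x C m y = ∑ l ∈ Finset.range m, XH x C l (w l)) :
    ∃ w' : ℕ → ∀ k, HH C P k, (∀ l < m, w' l ∈ gsub (HH C P) (k - d l)) ∧
      y = ∑ l ∈ Finset.range m, XH x C l (w' l) := by
  obtain ⟨w', hw'⟩ := H.reg m k (y k) (fun l => w l (k + d m - d l)) (by
    have h1 := congrFun h (k + d m)
    rw [xop_apply _ m y rfl, Finset.sum_apply] at h1
    rw [h1]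
    exact Finset.sum_congr rfl fun l _ => xop_apply _ l (w l) (sub_add_cancel (k + d m) (d l)))
  refine ⟨fun l => Pi.single (k - d l) (w' l), fun l _ => single_mem _ _, ?_⟩
  refine gsub_ext hy (AddSubgroup.sum_mem _ fun l _ => ?_) ?_
  · have := XH_mem (x := x) (C := C) l (k - d l) _ (single_mem (H := HH C P) (k - d l) (w' l))
    rwa [sub_add_cancel] at this
  · rw [hw', Finset.sum_apply]
    refine Finset.sum_congr rfl fun l _ => ?_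
    rw [xop_apply _ l _ (sub_add_cancel k (d l))]
    beta_reduce
    rw [Pi.single_eq_same]

theorem KHyp.exact {n : ℤ} {c : ℕ} {Z W V : 𝒯} {𝔽 : FreeOn p C P d n (c + 1 + 1) Z}
    {𝔾 : FreeOn p C P d n (c + 1) W} {𝔼 : FreeOn p C P d n c V} {D : Z ⟶ W} {D' : W ⟶ V}
    (h : IsKos x 𝔽 𝔾 D) (h' : IsKos x 𝔾 𝔼 D') (k : ℤ) (y : HH C W k) (hy : y ≫ D' ▷ C = 0) :
    ∃ z : HH C Z k, z ≫ D ▷ C = y := by
  obtain ⟨m, z, hz, hyz⟩ := 𝔾.gen k y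
  have hG : ∀ J, k - (dI d J + n) = k - n - dI d J := fun J => by ring
  have h1 : ∀ J ∈ pws c m, bd (XH x C) m z J = 0 := by
    intro J hJ
    have h2 := 𝔼.indep k m (bd (XH x C) m z) (by rw [← h'.pair, ← hyz, hy]) J hJ
    exact gsub_ext (k := k - (dI d J + n)) (bd_mem XH_mem fun l _ => hz (insert l J))
      (zero_mem _) h2
  obtain ⟨z', hz', hbz⟩ := claimB (X := XH x C) (G := gsub (HH C P)) (d := d) XH_mem
    (XH_comm H.comm C) H.reg' c m (k - n) z (fun I _ _ => by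
      rw [← hG]
      exact hz I) (fun J hJ hJc => h1 J (mem_pws.2 ⟨hJ, by omega⟩))
  refine ⟨∑ I ∈ pws (c + 1 + 1) m, pair k (z' I) (𝔽.ι I), ?_⟩
  rw [h.pair, hyz]
  refine Finset.sum_congr rfl fun I hI => ?_
  rw [hbz I (mem_pws.1 hI).1 (mem_pws.1 hI).2]

theorem KHyp.exact_zero {Z : 𝒯} {𝔽 : FreeOn p C P d 0 (0 + 1) Z} {D : Z ⟶ P}
    (h : IsKos x 𝔽 (freeOn_self H.pP) D) (k : ℤ) (y : HH C P k) (hy : y ≫ q ▷ C = 0) :
    ∃ z : HH C Z k, z ≫ D ▷ C = y := by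
  obtain ⟨m, w, hw⟩ := H.ker k y hy
  obtain ⟨z, hz, hbz⟩ := exists_bd_zero (X := XH x C) (G := gsub (HH C P)) (d := d) (m := m)
    (K := k) (w := fun l => Pi.single (k - d l) (w l)) (fun l _ => single_mem _ _)
  refine ⟨∑ I ∈ pws (0 + 1) m, pair k (z I) (𝔽.ι I), ?_⟩
  rw [h.pair, pws_zero, Finset.sum_singleton, hbz, hw]
  rw [freeOn_self_ι, pair_zero_shift, Finset.sum_apply]
  refine Finset.sum_congr rfl fun l _ => ?_
  rw [xop_apply _ l _ (sub_add_cancel k (d l)), Pi.single_eq_same]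

theorem KHyp.comp_q {Z : 𝒯} {𝔽 : FreeOn p C P d 0 (0 + 1) Z} {D : Z ⟶ P}
    (h : IsKos x 𝔽 (freeOn_self H.pP) D) {Y : 𝒯} (hY : PComplete p Y) (α : P ⟶ Y)
    (hα : ∀ l, x l ≫ α = 0) : D ≫ α = 0 := by
  refine 𝔽.uniq hY _ fun I hI => ?_
  obtain ⟨l, rfl⟩ := Finset.card_eq_one.1 hI
  rw [← Category.assoc, h _ hI, cob, Finset.sum_singleton, Pi.smul_apply, Finset.erase_singleton,
    xop_apply _ l _ (show dI d ∅ + 0 + d l = dI d {l} + 0 by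
      rw [dI_empty, dI, Finset.sum_singleton]; ring), FreeOn.tot_same, Preadditive.zsmul_comp]
  rw [freeOn_self_ι, xc_apply, ← gc_comp]
  have h2 : (shiftFunctorZero' 𝒯 (dI d ∅ + 0) (by rw [add_zero, dI_empty])).hom.app P ≫ α =
      α⟦dI d ∅ + 0⟧' ≫ (shiftFunctorZero' 𝒯 (dI d ∅ + 0) (by rw [add_zero, dI_empty])).hom.app Y :=
    ((shiftFunctorZero' 𝒯 (dI d ∅ + 0) (by rw [add_zero, dI_empty])).hom.naturality α).symm
  rw [h2, ← gc_map, hα, gc_zero_left, smul_zero]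

end exact

/-! ### the cochains of maps to `Y` -/

section cochain

variable {x : ∀ l, P⟦d l⟧ ⟶ P}

/-- lifting of cocycles -/
theorem exists_lift {n : ℤ} {c : ℕ} {Z₂ Z₁ Z₀ : 𝒯} (hd : ∀ l, 0 ≤ d l) (hn : 0 ≤ n)
    {𝔽₂ : FreeOn p C P d (n + 1 + 1) (c + 1 + 1 + 1) Z₂} {𝔽₁ : FreeOn p C P d (n + 1) (c + 1 + 1) Z₁}
    {𝔽₀ : FreeOn p C P d n (c + 1) Z₀} {D₁ : Z₂ ⟶ Z₁⟦(1 : ℤ)⟧} {D₀ : Z₁ ⟶ Z₀⟦(1 : ℤ)⟧}
    (hx : XComm x) (h₁ : IsKos x 𝔽₂ 𝔽₁.shift D₁) (h₀ : IsKos x 𝔽₁ 𝔽₀.shift D₀) {Y : 𝒯}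
    (hY : PComplete p Y)
    (H1 : ∀ (m : ℕ) (c : ℤ), 0 ≤ c → ∀ ψ : ∀ l, P⟦c + d l⟧ ⟶ Y,
      (∀ i < m, ∀ l < m, ∀ (k' : ℤ) (h : c + d l + d i = k') (h' : c + d i + d l = k'),
        gc h (x i) (ψ l) = gc h' (x l) (ψ i)) →
      ∃ φ : P⟦c⟧ ⟶ Y, ∀ l < m, gc rfl (x l) φ = ψ l)
    (ψ : Z₁ ⟶ Y) (hψ : D₁ ≫ ψ⟦(1 : ℤ)⟧' = 0) : ∃ φ : Z₀⟦(1 : ℤ)⟧ ⟶ Y, D₀ ≫ φ = ψ := by
  have hG : ∀ J : Finset ℕ, n + 1 + dI d J = dI d J + (n + 1) := fun J => add_comm _ _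
  -- the cocycle
  have hz : ∀ I : Finset ℕ, I.card = c + 1 + 1 + 1 →
      cob (XC x Y) (fun J => postc P ψ (𝔽₁.tot J)) I = 0 := by
    intro I hI
    have e1 : shc P Y (cob (XC x Y) (fun J => postc P ψ (𝔽₁.tot J)) I) =
        cob (XC x (Y⟦(1 : ℤ)⟧)) (fun J => postc P (ψ⟦(1 : ℤ)⟧') (𝔽₁.shift.tot J)) I := by
      rw [map_cob (shc P Y) (fun l a => shc_XC l a)]
      congr 1
      funext J e
      rw [𝔽₁.tot_shift]
      have h5 : 1 + (e - 1) = e := by ring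
      change gc h5 (𝔽₁.tot J (e - 1) ≫ ψ) (𝟙 _) = gc h5 (𝔽₁.tot J (e - 1)) (𝟙 _) ≫ ψ⟦(1 : ℤ)⟧'
      rw [← gc_comp, Category.id_comp, gc_map, Category.comp_id]
    have e2 : cob (XC x (Y⟦(1 : ℤ)⟧)) (fun J => postc P (ψ⟦(1 : ℤ)⟧') (𝔽₁.shift.tot J)) I =
        postc P (ψ⟦(1 : ℤ)⟧') (cob (XC x _) 𝔽₁.shift.tot I) :=
      (map_cob (postc P (ψ⟦(1 : ℤ)⟧')) (fun l a => postc_XC _ l a) _ _).symm
    refine gsub_ext (k := dI d I + (n + 1)) (cob_mem XC_mem fun l _ => postc_mem ψ (𝔽₁.tot_mem _))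
      (zero_mem _) ?_
    refine shc_inj (show 1 + (dI d I + (n + 1)) = dI d I + (n + 1 + 1) by ring) ?_
    rw [e1, e2]
    change cob (XC x _) 𝔽₁.shift.tot I (dI d I + (n + 1 + 1)) ≫ ψ⟦(1 : ℤ)⟧' = 0
    rw [← h₁ I hI, Category.assoc, hψ, comp_zero]
  obtain ⟨φ, hφ, hc⟩ := claimA (X := XC x Y) (G := gsub (GM P Y)) (d := d) (d0 := 0) XC_mem hd
    (XC_comm hx Y) (fun m c hc ψ hψ hcomm => by
      obtain ⟨φ, hφ⟩ := H1 m c hc (fun l => ψ l (c + d l)) (fun i hi l hl k' h h' => by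
        have h1 := congrFun (hcomm i hi l hl) k'
        rw [xop_apply _ i _ h, xop_apply _ l _ h', xc_apply, xc_apply] at h1
        exact h1)
      refine ⟨Pi.single c φ, single_mem _ _, fun l hl => ?_⟩
      refine gsub_ext (k := c + d l) (XC_mem l c _ (single_mem _ _)) (hψ l hl) ?_
      rw [xop_apply _ l _ rfl, Pi.single_eq_same, xc_apply]
      exact hφ l hl) (s := c) (c := n + 1) (by omega) (ψ := fun J => postc P ψ (𝔽₁.tot J))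
      (fun I _ => by
        rw [hG]
        exact postc_mem ψ (𝔽₁.tot_mem I)) hz
  obtain ⟨f, hf⟩ := 𝔽₀.shift.desc hY (fun J => φ J (dI d J + (n + 1)))
  refine ⟨f, 𝔽₁.ext hY fun I hI => ?_⟩
  have hft : ∀ J : Finset ℕ, J.card = c + 1 → postc P f (𝔽₀.shift.tot J) = φ J := by
    intro J hJ
    refine gsub_ext (k := dI d J + (n + 1)) (postc_mem f (𝔽₀.shift.tot_mem J)) ?_ ?_
    · rw [← hG]
      exact hφ J hJ
    · change 𝔽₀.shift.tot J (dI d J + (n + 1)) ≫ f = _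
      rw [FreeOn.tot_same, hf J hJ]
  have h2 := congrArg (postc P f) (h₀.postc_tot hI)
  rw [map_cob (postc P f) (fun l a => postc_XC f l a), cob_congr (φ' := φ) _ fun l hl =>
    hft _ (by rw [Finset.card_erase_of_mem hl, hI]; rfl), hc I hI] at h2
  have h3 := congrFun h2 (dI d I + (n + 1))
  change (𝔽₁.tot I (dI d I + (n + 1)) ≫ D₀) ≫ f = 𝔽₁.tot I (dI d I + (n + 1)) ≫ ψ at h3
  rwa [FreeOn.tot_same, Category.assoc] at h3

end cochain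

/-! ### the resolution -/

/-- the natural numbers in the integers, with definitional recursion -/
def sN : ℕ → ℤ
  | 0 => 0
  | n + 1 => sN n + 1

theorem sN_eq : ∀ n : ℕ, sN n = n
  | 0 => rfl
  | n + 1 => by rw [sN, sN_eq n]; push_cast; rfl

theorem sN_nonneg (n : ℕ) : 0 ≤ sN n := by
  rw [sN_eq]
  exact Int.natCast_nonneg n

/-- **Extension along `q`.** -/
theorem KHyp.extend {x : ∀ l, P⟦d l⟧ ⟶ P} {q : P ⟶ B} (H : KHyp p C x q)
    (hC : ∃ (i : 𝟙_ 𝒯 ⟶ C) (δ : C ⟶ (𝟙_ 𝒯)⟦(1 : ℤ)⟧),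
      Triangle.mk ((p : ℤ) • 𝟙 (𝟙_ 𝒯)) i δ ∈ distTriang 𝒯) {Y : 𝒯} (hY : PComplete p Y)
    (H1 : ∀ (m : ℕ) (c : ℤ), 0 ≤ c → ∀ ψ : ∀ l, P⟦c + d l⟧ ⟶ Y,
      (∀ i < m, ∀ l < m, ∀ (k' : ℤ) (h : c + d l + d i = k') (h' : c + d i + d l = k'),
        gc h (x i) (ψ l) = gc h' (x l) (ψ i)) →
      ∃ φ : P⟦c⟧ ⟶ Y, ∀ l < m, gc rfl (x l) φ = ψ l)
    (α : P ⟶ Y) (hα : ∀ l, x l ≫ α = 0) : ∃ β : B ⟶ Y, q ≫ β = α := by
  choose Z hZ using fun n : ℕ => exists_freeOn hC P d (sN n) (n + 1)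
  have 𝔽 : ∀ n, FreeOn p C P d (sN n) (n + 1) (Z n) := fun n => (hZ n).some
  obtain ⟨D₀, hD₀⟩ : ∃ D₀ : Z 0 ⟶ P, IsKos x (n := 0) (c := 0) (𝔽 0) (freeOn_self H.pP) D₀ :=
    exists_kos x _ _
  choose D hD using fun n => exists_kos x (𝔽 (n + 1)) (𝔽 n).shift
  let R : Res p C P B :=
    { q := q
      Ψ := Z
      d0 := D₀
      d := D
      d0_q := H.comp_q hD₀ H.pB q H.x_q
      d_d0 := (hD 0).comp_zero H.comm hD₀.shift
      d_d := fun n => (hD (n + 1)).comp_zero H.comm (hD n).shift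
      pF := H.pP
      pB := H.pB
      pΨ := fun n => (𝔽 n).pc
      cF := H.cP
      cB := H.cB
      cΨ := fun n => by
        have := (𝔽 n).conc H.even H.cP
        rwa [sN_eq] at this
      par := fun n K hK hc f => (𝔽 (n + 1)).par H.even H.par hK (s := n) (by
        rw [sN_eq]
        exact ⟨-1, by push_cast; ring⟩) hc f
      ex_q := H.onto
      ex_F := H.exact_zero hD₀
      ex_0 := H.exact (hD 0) hD₀.shift
      ex := fun n => H.exact (hD (n + 1)) (hD n).shift }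
  refine R.exists_extension hC (fun k I X f => compact_sum X ⟨k, ⟨Iso.refl _⟩⟩ f) hY
    (fun n ψ hψ => ?_) α (H.comp_q hD₀ hY α hα)
  exact exists_lift H.nonneg (sN_nonneg n) H.comm (hD (n + 1)) (hD n) hY H1 ψ hψ

end Vale.Agent.P221.H903
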