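import Vale.Agent.P221.H903.K7
import Vale.Agent.P221.T.H769.F1

/-!
# P221, part (T1'): `Lifts S q`

`lifts` : the lifting property of `q : P ⟶ B` from `KHyp`.
-/

open CategoryTheory MonoidalCategory Limits Pretriangulated
open Vale.Agent.P251.T Vale.Agent.P251.S Vale.Agent.P221.H395 Vale.Agent.P221.T

set_option linter.unusedSectionVars false

universe v u

namespace Vale.Agent.P221.H903

variable {𝒯 : Type u} [Category.{0} 𝒯] [Preadditive 𝒯] [HasZeroObject 𝒯]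
    [HasShift 𝒯 ℤ] [∀ n : ℤ, (shiftFunctor 𝒯 n).Additive] [Pretriangulated 𝒯] [IsTriangulated 𝒯]
    [MonoidalCategory 𝒯] [SymmetricCategory 𝒯] [TensorTriangulated 𝒯] [MonoidalClosed 𝒯]
    [HasCoproducts.{0} 𝒯] [HasProducts.{0} 𝒯] [StableCat 𝒯]

variable {p n : ℕ} {C P B : 𝒯}

/-- finitely many elements lie in a common step of the filtration -/
theorem exists_common {S : SrcT p n P} {Y : 𝒯} {N : Type} [AddCommGroup N] [Module (RR p n) N]
    {gr : ℤ → ℤ → AddSubgroup N} {d : ℤ} (T : FS (S.sys Y) gr d) (k : ℕ → ℤ) (hk : ∀ l, d ≤ k l)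
    (m : ℕ) : ∃ s : ℤ, ∀ l < m, T.F s (k l) = ⊤ := by
  induction m with
  | zero => exact ⟨0, fun l hl => absurd hl (Nat.not_lt_zero l)⟩
  | succ m ih =>
    obtain ⟨s, hs⟩ := ih
    obtain ⟨s', hs'⟩ := T.exh (hk m)
    refine ⟨min s s', fun l hl => ?_⟩
    rcases Nat.lt_succ_iff_lt_or_eq.1 hl with h | rfl
    · exact top_le_iff.1 ((hs l h).symm.le.trans (T.mono (min_le_left s s')))
    · exact top_le_iff.1 (hs'.symm.le.trans (T.mono (min_le_right s s')))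

/-- **(T1')** the lifting property of `q : P ⟶ B`. -/
theorem lifts (hp : 0 < p) (hC : ∃ (i : 𝟙_ 𝒯 ⟶ C) (δ : C ⟶ (𝟙_ 𝒯)⟦(1 : ℤ)⟧),
      Triangle.mk ((p : ℤ) • 𝟙 (𝟙_ 𝒯)) i δ ∈ distTriang 𝒯) (S : SrcT p n P) {q : P ⟶ B}
    (H : KHyp p C S.x q) : Lifts S q := by
  intro Y hY N _ _ gr d T hV k a hk ha
  let ε : (Y⟦-k⟧)⟦k⟧ ≅ Y := (shiftFunctorCompIsoId 𝒯 (-k) k (by ring)).app Y
  have εinj : ∀ {A : 𝒯} {e e' : ℤ} (h : k + e = e') {w w' : A⟦e⟧ ⟶ Y⟦-k⟧},
      gc h w ε.hom = gc h w' ε.hom → w = w' := by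
    intro A e e' h w w' hw
    rw [gc_eq, gc_eq h w'] at hw
    exact gc_inj h ((cancel_mono ε.hom).1 hw)
  have εsurj : ∀ {A : 𝒯} {e e' : ℤ} (h : k + e = e') (z : A⟦e'⟧ ⟶ Y),
      ∃ w : A⟦e⟧ ⟶ Y⟦-k⟧, gc h w ε.hom = z := by
    intro A e e' h z
    obtain ⟨w, hw⟩ := gc_surj h (z ≫ ε.inv)
    refine ⟨w, ?_⟩
    rw [gc_eq, hw, Category.assoc, Iso.inv_hom_id, Category.comp_id]
  obtain ⟨a', ha'⟩ := (shiftFunctor 𝒯 k).map_surjective (a ≫ ε.inv)
  have ha1 : a'⟦k⟧' ≫ ε.hom = a := by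
    rw [ha', Category.assoc, Iso.inv_hom_id, Category.comp_id]
  have hdd : ∀ l, 0 ≤ dd p n l := H.nonneg
  obtain ⟨β, hβ⟩ := H.extend hC (hY.shift (-k)) (fun m c hc ψ hψ => by
    obtain ⟨s, hs⟩ := exists_common T (fun l => k + c + dd p n l)
      (fun l => by have := hdd l; omega) m
    obtain ⟨φ, -, hφ⟩ := Vale.Agent.P221.T.H769.specF1 hp S.src (S.sys Y) N gr d T {l | l < m} (hV m) (k + c)
      (s - 1) (by omega) (fun l => gc (by ring : k + (c + dd p n l) = k + c + dd p n l) (ψ l) ε.hom)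
      (fun l hl => by
        rw [sub_add_cancel, hs l hl]
        exact AddSubgroup.mem_top _) (fun i hi l hl k' h h' => by
        change gc h (S.x i) (gc (show k + (c + dd p n l) = k + c + dd p n l by ring) (ψ l) ε.hom) =
          gc h' (S.x l) (gc (show k + (c + dd p n i) = k + c + dd p n i by ring) (ψ i) ε.hom)
        rw [gc_assoc (S.x i) (ψ l) ε.hom _ h (show c + dd p n l + dd p n i = k' - k by omega)
            (show k + (k' - k) = k' by ring),
          gc_assoc (S.x l) (ψ i) ε.hom _ h' (show c + dd p n i + dd p n l = k' - k by omega)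
            (show k + (k' - k) = k' by ring), hψ i hi l hl (k' - k) (by omega) (by omega)])
    obtain ⟨φ', hφ'⟩ := εsurj (show k + c = k + c from rfl) φ
    refine ⟨φ', fun l hl => εinj (show k + (c + dd p n l) = k + c + dd p n l by ring) ?_⟩
    have h1 : gc rfl (S.x l) φ = gc (show k + (c + dd p n l) = k + c + dd p n l by ring) (ψ l) ε.hom :=
      hφ l hl
    rw [← h1, ← hφ']
    exact (gc_assoc (S.x l) φ' ε.hom rfl rfl rfl _).symm) a' (fun l => by
    refine εinj (show k + dd p n l = k + dd p n l from rfl) ?_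
    rw [gc_map, ha1, gc_zero_left]
    exact ha l)
  refine ⟨β⟦k⟧' ≫ ε.hom, ?_⟩
  rw [← Category.assoc, ← Functor.map_comp, hβ, ha1]

end Vale.Agent.P221.H903
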