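import Vale.Agent.P221.T.H924.FormAlg

/-!
# P221, part (T1'): algebra of the generators `x l` of `ℤ_p[v_1, v_2, …]`

`x l` homogeneous of the degree of `v_{n+1+l}`, `x l - v_{n+1+l} ∈ (p, v_1, …)²`.

* `exists_of_red` : lifting of representations modulo `p`;
* `reg_red` : the `x l` are a regular sequence modulo `p`;
* `mem_span_iff` : the ideal generated by the `x l` modulo `p`.
-/

open MvPolynomial
open Vale.Agent.P221.T Vale.Agent.P221.T.H924 Vale.Agent.P221.T.H746 Vale.Agent.P221.H924

namespace Vale.Agent.P221.H903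

variable (p : ℕ) [hp : Fact p.Prime]

/-- the homogeneous component -/
noncomputable def cmp (k : ℤ) : KK p →ₗ[ℤ_[p]] KK p :=
  weightedHomogeneousComponent (fun i => sV p (i + 1)) k

theorem cmp_hk (k : ℤ) (f : KK p) : HK p k (cmp p k f) :=
  weightedHomogeneousComponent_isWeightedHomogeneous k f

theorem cmp_same {k : ℤ} {f : KK p} (hf : HK p k f) : cmp p k f = f :=
  hf.weightedHomogeneousComponent_same

theorem cmp_mul {k d : ℤ} {a : KK p} (ha : HK p d a) (b : KK p) :
    cmp p k (a * b) = a * cmp p (k - d) b := by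
  let _ : GradedAlgebra (weightedHomogeneousSubmodule ℤ_[p] (fun i : ℕ => sV p (i + 1))) :=
    weightedGradedAlgebra ℤ_[p] (fun i : ℕ => sV p (i + 1))
  have h := DirectSum.coe_decompose_mul_add_of_left_mem
    (weightedHomogeneousSubmodule ℤ_[p] (fun i : ℕ => sV p (i + 1))) (i := d) (j := k - d)
    (a := a) (b := b) ha
  rw [add_sub_cancel] at h
  have h1 : ∀ (f : KK p) (m : ℤ), ((DirectSum.decompose
      (weightedHomogeneousSubmodule ℤ_[p] (fun i : ℕ => sV p (i + 1))) f) m : KK p) =
      cmp p m f := fun f m => weightedDecomposition.decompose'_apply _ _ f m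
  rw [h1, h1] at h
  exact h

theorem red_surjective : Function.Surjective (red p) := by
  unfold red
  exact map_surjective _ (toZMod_surjective p)

theorem exists_of_red_zero {f : KK p} (h : red p f = 0) : ∃ f', f = (p : KK p) * f' := by
  have h1 : (C (p : ℤ_[p]) : KK p) ∣ f := by
    rw [C_dvd_iff_dvd_coeff]
    intro d
    refine dvd_of_toZMod p ?_
    have h2 := congrArg (coeff d) h
    rwa [red, coeff_map, coeff_zero] at h2
  obtain ⟨f', hf'⟩ := h1
  exact ⟨f', by rw [hf', map_natCast]⟩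

theorem red_p (f : KK p) : red p ((p : KK p) * f) = 0 := by
  rw [map_mul, map_natCast, CharP.cast_eq_zero, zero_mul]

theorem hk_sub {k : ℤ} {f g : KK p} (hf : HK p k f) (hg : HK p k g) : HK p k (f - g) :=
  (weightedHomogeneousSubmodule ℤ_[p] _ k).sub_mem hf hg

theorem hk_sum {k : ℤ} {ι : Type*} (s : Finset ι) (f : ι → KK p) (hf : ∀ i ∈ s, HK p k (f i)) :
    HK p k (∑ i ∈ s, f i) :=
  (weightedHomogeneousSubmodule ℤ_[p] _ k).sum_mem hf

variable {n : ℕ} {x : ℕ → KK p}

/-- lifting of representations modulo `p` -/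
theorem exists_of_red (hx : ∀ l, HK p (dd p n l) (x l)) {k : ℤ} {f : KK p} (hf : HK p k f) (m : ℕ)
    (h : ℕ → MvPolynomial ℕ (ZMod p)) (e : red p f = ∑ l ∈ Finset.range m, red p (x l) * h l) :
    ∃ w : ℕ → KK p, (∀ l, HK p (k - dd p n l) (w l)) ∧ ∃ f', HK p k f' ∧
      f = ∑ l ∈ Finset.range m, x l * w l + (p : KK p) * f' := by
  choose H hH using fun l => red_surjective p (h l)
  obtain ⟨F, hF⟩ := exists_of_red_zero p (f := f - ∑ l ∈ Finset.range m, x l * H l) (by
    rw [map_sub, e, map_sum, sub_eq_zero]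
    exact Finset.sum_congr rfl fun l _ => by rw [map_mul, hH])
  refine ⟨fun l => cmp p (k - dd p n l) (H l), fun l => cmp_hk p _ _, cmp p k F, cmp_hk p _ _, ?_⟩
  have hp0 : HK p (0 : ℤ) (p : KK p) := by
    have := isWeightedHomogeneous_C (fun i => sV p (i + 1)) (p : ℤ_[p])
    rwa [map_natCast] at this
  have h1 : f = ∑ l ∈ Finset.range m, x l * H l + (p : KK p) * F := by
    rw [← hF, add_sub_cancel]
  have h2 := congrArg (cmp p k) h1
  rw [map_add, map_sum, cmp_same p hf, cmp_mul p hp0, sub_zero] at h2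
  rw [h2]
  congr 1
  exact Finset.sum_congr rfl fun l _ => cmp_mul p (hx l) _

/-- the reductions of the generators, with the index of `v` -/
noncomputable def xi (x : ℕ → KK p) (n j : ℕ) : MvPolynomial ℕ (ZMod p) := red p (x (j - n))

theorem xi_isWH (hx : ∀ l, HK p (dd p n l) (x l)) (j : ℕ) (hj : n ≤ j) :
    (xi p x n j).IsWeightedHomogeneous (wN p) (wN p j) := by
  refine red_isWH p ?_
  rw [← sV_eq]
  have h := hx (j - n)
  unfold dd at h
  rwa [show n + 1 + (j - n) = j + 1 by omega] at h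

theorem coeff_xi (hm : ∀ l, x l - X (n + l) ∈ II p ^ 2) (j : ℕ) (hj : n ≤ j) :
    coeff (Finsupp.single j 1) (xi p x n j) ≠ 0 := by
  have h := (mem_II_pow_iff p).1 (hm (j - n)) (Finsupp.single j 1)
  rw [show n + (j - n) = j by omega, coeff_sub, coeff_X, if_pos rfl, Finsupp.degree_single] at h
  obtain ⟨c, hc⟩ := h
  have h1 : coeff (Finsupp.single j 1) (x (j - n)) = 1 + (p : ℤ_[p]) * c := by
    rw [← sub_eq_iff_eq_add', hc]
    ring
  rw [xi, red, coeff_map, h1, map_add, map_one, map_mul, map_natCast, CharP.cast_eq_zero,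
    zero_mul, add_zero]
  exact one_ne_zero

/-- membership in the ideal of some variables -/
theorem mem_span_X_of_mul {σ k : Type*} [Field k] (s : Set σ) {a : σ} (ha : a ∉ s)
    {f : MvPolynomial σ k} (h : X a * f ∈ Ideal.span (X '' s : Set (MvPolynomial σ k))) :
    f ∈ Ideal.span (X '' s : Set (MvPolynomial σ k)) := by
  classical
  rw [mem_ideal_span_X_image] at h ⊢
  intro μ hμ
  obtain ⟨i, hi, h1⟩ := h (Finsupp.single a 1 + μ) (by
    rw [mem_support_iff, coeff_X_mul]
    exact mem_support_iff.1 hμ)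
  refine ⟨i, hi, ?_⟩
  have hia : i ≠ a := fun h => ha (by rwa [← h])
  rw [Finsupp.add_apply, Finsupp.single_eq_of_ne hia, zero_add] at h1
  exact h1

/-- elements of the ideal generated by finitely many elements -/
theorem mem_span_image_range {A : Type*} [CommRing A] (y : ℕ → A) (m : ℕ) (f : A) :
    f ∈ Ideal.span (y '' {l | l < m}) ↔ ∃ h : ℕ → A, f = ∑ l ∈ Finset.range m, y l * h l := by
  constructor
  · intro h
    induction h using Submodule.span_induction with
    | mem f hf =>
      obtain ⟨l, hl, rfl⟩ := hf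
      refine ⟨fun i => if i = l then 1 else 0, ?_⟩
      rw [Finset.sum_eq_single l]
      · beta_reduce
        rw [if_pos rfl, mul_one]
      · intro i _ hi
        beta_reduce
        rw [if_neg hi, mul_zero]
      · intro h
        exact absurd (Finset.mem_range.2 hl) h
    | zero => exact ⟨0, by simp⟩
    | add f g _ _ hf hg =>
      obtain ⟨a, rfl⟩ := hf
      obtain ⟨b, rfl⟩ := hg
      exact ⟨a + b, by simp [mul_add, Finset.sum_add_distrib]⟩
    | smul c f _ hf =>
      obtain ⟨a, rfl⟩ := hf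
      refine ⟨fun l => c * a l, ?_⟩
      rw [smul_eq_mul, Finset.mul_sum]
      exact Finset.sum_congr rfl fun l _ => by ring
  · rintro ⟨h, rfl⟩
    refine Ideal.sum_mem _ fun l hl => Ideal.mul_mem_right _ _ (Ideal.subset_span ⟨l, ?_, rfl⟩)
    exact Finset.mem_range.1 hl

/-- **regularity** -/
theorem reg_red (hx : ∀ l, HK p (dd p n l) (x l)) (hm : ∀ l, x l - X (n + l) ∈ II p ^ 2) (m : ℕ)
    (f : MvPolynomial ℕ (ZMod p)) (g : ℕ → MvPolynomial ℕ (ZMod p))
    (e : red p (x m) * f = ∑ l ∈ Finset.range m, red p (x l) * g l) :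
    ∃ h : ℕ → MvPolynomial ℕ (ZMod p), f = ∑ l ∈ Finset.range m, red p (x l) * h l := by
  let E := gE p (gX p n (xi p x n)) (gX_isWH p (xi_isWH p hx)) (coeff_gX p (coeff_xi p hm))
  have hE : ∀ l, E (X (n + l)) = red p (x l) := by
    intro l
    change aeval (gX p n (xi p x n)) (X (n + l)) = _
    rw [aeval_X, gX, if_neg (by omega), xi, Nat.add_sub_cancel_left]
  have hE' : ∀ l, E.symm (red p (x l)) = X (n + l) := fun l => by
    rw [← hE, AlgEquiv.symm_apply_apply]
  have hinj : Function.Injective (fun l : ℕ => n + l) := fun a b h => Nat.add_left_cancel h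
  have h1 : X (n + m) * E.symm f ∈ Ideal.span (X '' ((fun l => n + l) '' {l | l < m}) :
      Set (MvPolynomial ℕ (ZMod p))) := by
    rw [Set.image_image, mem_span_image_range]
    refine ⟨fun l => E.symm (g l), ?_⟩
    have h2 := congrArg E.symm e
    rw [map_mul, hE', map_sum] at h2
    rw [h2]
    exact Finset.sum_congr rfl fun l _ => by rw [map_mul, hE']
  have h2 := mem_span_X_of_mul _ (fun h => by
    obtain ⟨l, hl, h⟩ := h
    have h3 : l = m := hinj h
    have h4 : l < m := hl
    omega) h1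
  rw [Set.image_image, mem_span_image_range] at h2
  obtain ⟨h, hh⟩ := h2
  refine ⟨fun l => E (h l), ?_⟩
  have h3 := congrArg E hh
  rw [AlgEquiv.apply_symm_apply, map_sum] at h3
  rw [h3]
  exact Finset.sum_congr rfl fun l _ => by rw [map_mul, hE]

/-- the ideal generated by all `x l` -/
theorem exists_of_mem_span {f : MvPolynomial ℕ (ZMod p)}
    (h : f ∈ Ideal.span (xi p x n '' {j : ℕ | n ≤ j})) :
    ∃ (m : ℕ) (h : ℕ → MvPolynomial ℕ (ZMod p)),
      f = ∑ l ∈ Finset.range m, red p (x l) * h l := by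
  have h0 : xi p x n '' {j : ℕ | n ≤ j} ⊆ Set.range fun l => red p (x l) := by
    rintro _ ⟨j, -, rfl⟩
    exact ⟨j - n, rfl⟩
  have h1 : f ∈ Ideal.span (Set.range fun l => red p (x l)) := Ideal.span_mono h0 h
  clear h h0
  have key : ∃ m : ℕ, f ∈ Ideal.span ((fun l => red p (x l)) '' {l | l < m}) := by
    induction h1 using Submodule.span_induction with
    | mem f hf =>
      obtain ⟨l, rfl⟩ := hf
      exact ⟨l + 1, Ideal.subset_span ⟨l, Nat.lt_succ_self l, rfl⟩⟩
    | zero => exact ⟨0, Ideal.zero_mem _⟩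
    | add f g _ _ hf hg =>
      obtain ⟨a, ha⟩ := hf
      obtain ⟨b, hb⟩ := hg
      refine ⟨max a b, Ideal.add_mem _ (Ideal.span_mono (Set.image_mono ?_) ha)
        (Ideal.span_mono (Set.image_mono ?_) hb)⟩
      · intro l hl
        exact lt_of_lt_of_le hl (le_max_left a b)
      · intro l hl
        exact lt_of_lt_of_le hl (le_max_right a b)
    | smul c f _ hf =>
      obtain ⟨a, ha⟩ := hf
      exact ⟨a, Ideal.mul_mem_left _ c ha⟩
  obtain ⟨m, hm⟩ := key
  exact ⟨m, (mem_span_image_range _ m f).1 hm⟩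

/-- homogeneous lifts -/
theorem exists_lift_fin {m : ℕ} {f : MvPolynomial (Fin n) (ZMod p)}
    (hf : f.IsWeightedHomogeneous (fun a : Fin n => wN p a) m) :
    ∃ g : MvPolynomial (Fin n) ℤ_[p], HK p (2 * (m : ℤ)) (RN p n g) ∧
      MvPolynomial.map PadicInt.toZMod g = f := by
  classical
  choose a ha using fun c : ZMod p => ZMod.intCast_surjective c
  refine ⟨∑ μ ∈ f.support, monomial μ ((a (coeff μ f) : ℤ) : ℤ_[p]), ?_, ?_⟩
  · rw [HK_RN_iff]
    refine (weightedHomogeneousSubmodule ℤ_[p] _ _).sum_mem fun μ hμ => ?_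
    rw [mem_weightedHomogeneousSubmodule]
    refine isWeightedHomogeneous_monomial _ _ _ ?_
    rw [weight_sV p (fun i : Fin n => (i : ℕ)), hf (mem_support_iff.1 hμ)]
  · rw [map_sum]
    conv_rhs => rw [f.as_sum]
    refine Finset.sum_congr rfl fun μ _ => ?_
    rw [map_monomial, map_intCast, ha]

end Vale.Agent.P221.H903
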