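import Vale.Agent.P221.H903.K8
import Vale.Agent.P221.H903.R1
import Vale.Agent.P221.T.Form
import Vale.Agent.P221.T.H609.SB2a
import Vale.Agent.P221.T.H817.Lin
import Vale.Agent.P251.S.ModP

/-!
# P221, part (T1'): reduction modulo `p` of the source and of a form

`lifts_of_form` : the lifting property of the quotient map `φ.Q : P ⟶ B` of a form.
-/

open CategoryTheory MonoidalCategory MonObj Limits Pretriangulated
open Vale.Agent.P251.T Vale.Agent.P251.S Vale.Agent.P221.H395 Vale.Agent.P221.T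
open Vale.Agent.P221.T.H609 (map_of map_zs of_cls kk_mem kk_unit_inj kk_mul_apply kk_add_apply
  kk_zero_apply kk_sum_apply ext_zero_shift)
open Vale.Agent.P221.T.H746 (RN)
open Vale.Agent.P221.T.H924 (red eq_zero_or exists_mod red_isWH red_RN sV_eq)

set_option linter.unusedSectionVars false

universe u

namespace Vale.Agent.P221.H903

variable {𝒯 : Type u} [Category.{0} 𝒯] [Preadditive 𝒯] [HasZeroObject 𝒯]
    [HasShift 𝒯 ℤ] [∀ n : ℤ, (shiftFunctor 𝒯 n).Additive] [Pretriangulated 𝒯] [IsTriangulated 𝒯]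
    [MonoidalCategory 𝒯] [SymmetricCategory 𝒯] [TensorTriangulated 𝒯] [MonoidalClosed 𝒯]
    [HasCoproducts.{0} 𝒯] [HasProducts.{0} 𝒯] [StableCat 𝒯]

/-! ### the reduction -/

section red

variable {C : 𝒯} (i : 𝟙_ 𝒯 ⟶ C)

/-- the reduction `Y ⟶ Y ⊗ C` -/
noncomputable def rd (Y : 𝒯) : Y ⟶ Y ⊗ C := (redC i).app Y

theorem rd_naturality {Y Z : 𝒯} (f : Y ⟶ Z) : f ≫ rd i Z = rd i Y ≫ f ▷ C :=
  (redC i).naturality f

theorem shift_rd_tm {P Z : 𝒯} {e : ℤ} (a : P⟦e⟧ ⟶ Z) : (rd i P)⟦e⟧' ≫ tm C a = a ≫ rd i Z := by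
  have h1 : (rd i P)⟦e⟧' = rd i (P⟦e⟧) ≫ ((tensorRight C).commShiftIso e).hom.app P := by
    have h := NatTrans.shift_app_comm (redC i) e P
    rw [Functor.commShiftIso_id_hom_app] at h
    exact (Category.id_comp _).symm.trans h
  rw [h1, rd_naturality, Category.assoc]
  congr 1
  unfold tm fm
  exact Iso.hom_inv_id_app_assoc _ _ _

theorem gc_rd {P Z : 𝒯} {e k k' : ℤ} (h : e + k = k') (y : (𝟙_ 𝒯)⟦k⟧ ⟶ P) (a : P⟦e⟧ ⟶ Z) :
    gc h (y ≫ rd i P) (tm C a) = gc h y a ≫ rd i Z := by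
  rw [gc_map, shift_rd_tm, gc_comp]

variable {i} {p : ℕ} {δ : C ⟶ (𝟙_ 𝒯)⟦(1 : ℤ)⟧}
  (hC : Triangle.mk ((p : ℤ) • 𝟙 (𝟙_ 𝒯)) i δ ∈ distTriang 𝒯)

include hC

theorem exists_rd {Y : 𝒯} {k : ℤ}
    (htf : ∀ z : (𝟙_ 𝒯)⟦k - 1⟧ ⟶ Y, (p : ℤ) • z = 0 → z = 0) (y : HH C Y k) :
    ∃ z : (𝟙_ 𝒯)⟦k⟧ ⟶ Y, z ≫ rd i Y = y := by
  refine exists_lift_of_torsionFree hC (fun g hg => ?_) y
  obtain ⟨z, rfl⟩ := gc_surj (show 1 + (k - 1) = k by ring) g
  have h1 : (p : ℤ) • z = 0 := by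
    refine gc_inj (show 1 + (k - 1) = k by ring) ?_
    rw [gc_zero_left]
    have h2 := map_zsmul (AddMonoidHom.mk' (fun z => gc (show 1 + (k - 1) = k by ring) z
      (𝟙 (Y⟦(1 : ℤ)⟧))) fun a b => gc_add_left _ _ _ _) (p : ℤ) z
    exact h2.trans hg
  rw [htf z h1, gc_zero_left]

theorem exists_of_rd {Y : 𝒯} {k : ℤ} (z : (𝟙_ 𝒯)⟦k⟧ ⟶ Y) (h : z ≫ rd i Y = 0) :
    ∃ z', (p : ℤ) • z' = z := exists_zsmul_of_red hC z h

theorem zsmul_rd {Y : 𝒯} {k : ℤ} (z : (𝟙_ 𝒯)⟦k⟧ ⟶ Y) : ((p : ℤ) • z) ≫ rd i Y = 0 :=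
  zsmul_comp_red hC z

end red

section src

variable {p n : ℕ} [Fact p.Prime] {R P W B : 𝒯} [MonObj R] [IsCommMonObj R] (b : BPS p R P W)

theorem of_zsmul {Y : 𝒯} (M : ModStr R Y) (hY : H395.PComplete p Y) (f : KK p) (y : PiM Y) :
    (p : ℤ) • b.kk M hY f y = b.kk M hY ((p : KK p) * f) y := by
  rw [kk_mul_apply, map_natCast]
  rw [natCast_zsmul]
  rfl

theorem exists_cls {k : ℤ} (z : (𝟙_ 𝒯)⟦k⟧ ⟶ P) : ∃ f, HK p k f ∧ z = b.cls k f := by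
  obtain ⟨f, ⟨hf, hz⟩, -⟩ := b.free k z
  refine ⟨f, hf, PiM.of_injective P k ?_⟩
  rw [of_cls b hf]
  exact hz

theorem cls_inj {k : ℤ} {f g : KK p} (hf : HK p k f) (hg : HK p k g)
    (h : b.cls k f = b.cls k g) : f = g := by
  refine kk_unit_inj b hf hg ?_
  rw [← of_cls b hf, ← of_cls b hg, h]

theorem hk_zero (k : ℤ) : HK p k (0 : KK p) :=
  (MvPolynomial.weightedHomogeneousSubmodule ℤ_[p] _ k).zero_mem

theorem hk_add {k : ℤ} {f g : KK p} (hf : HK p k f) (hg : HK p k g) : HK p k (f + g) :=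
  (MvPolynomial.weightedHomogeneousSubmodule ℤ_[p] _ k).add_mem hf hg

theorem hk_p {k : ℤ} {f : KK p} (hf : HK p k f) : HK p k ((p : KK p) * f) := by
  have hp0 : HK p (0 : ℤ) (p : KK p) := by
    have := MvPolynomial.isWeightedHomogeneous_C (fun i => sV p (i + 1)) (p : ℤ_[p])
    rwa [map_natCast] at this
  have := hp0.mul hf
  rwa [zero_add] at this

theorem cls_add {k : ℤ} {f g : KK p} (hf : HK p k f) (hg : HK p k g) :
    b.cls k (f + g) = b.cls k f + b.cls k g := by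
  refine PiM.of_injective P k ?_
  rw [map_add, of_cls b hf, of_cls b hg, of_cls b (hk_add hf hg), kk_add_apply]

theorem cls_zero (k : ℤ) : b.cls k 0 = 0 := by
  refine PiM.of_injective P k ?_
  rw [of_cls b (hk_zero k), kk_zero_apply, map_zero]

theorem cls_sum {k : ℤ} {ι : Type} (s : Finset ι) (f : ι → KK p) (hf : ∀ i ∈ s, HK p k (f i)) :
    b.cls k (∑ i ∈ s, f i) = ∑ i ∈ s, b.cls k (f i) := by
  refine PiM.of_injective P k ?_
  rw [map_sum, of_cls b (hk_sum p s f hf), kk_sum_apply]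
  exact Finset.sum_congr rfl fun i hi => (of_cls b (hf i hi)).symm

theorem cls_p {k : ℤ} {f : KK p} (hf : HK p k f) : b.cls k ((p : KK p) * f) = (p : ℤ) • b.cls k f := by
  refine PiM.of_injective P k ?_
  rw [map_zsmul, of_cls b hf, of_cls b (hk_p hf), of_zsmul]

include b in
theorem tf_P {k : ℤ} (z : (𝟙_ 𝒯)⟦k⟧ ⟶ P) (hz : (p : ℤ) • z = 0) : z = 0 := by
  obtain ⟨f, hf, rfl⟩ := exists_cls b z
  rw [← cls_p b hf, ← cls_zero b k] at hz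
  have h1 := cls_inj b (hk_p hf) (hk_zero k) hz
  rcases mul_eq_zero.1 h1 with h2 | h2
  · exact absurd h2 (Nat.cast_ne_zero.2 (Fact.out : p.Prime).ne_zero)
  · rw [h2, cls_zero]

theorem odd_hk {k : ℤ} (hk : Odd k) {f : KK p} (hf : HK p k f) : f = 0 := by
  rcases eq_zero_or p hf with h | ⟨m, rfl⟩
  · exact h
  · exact absurd hk (Int.not_odd_iff_even.2 (even_two_mul _))

variable {C : 𝒯} {i : 𝟙_ 𝒯 ⟶ C} {δ : C ⟶ (𝟙_ 𝒯)⟦(1 : ℤ)⟧}
  (hC : Triangle.mk ((p : ℤ) • 𝟙 (𝟙_ 𝒯)) i δ ∈ distTriang 𝒯)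

include hC

theorem exists_cls_rd {k : ℤ} (y : HH C P k) : ∃ f, HK p k f ∧ y = b.cls k f ≫ rd i P := by
  obtain ⟨z, rfl⟩ := exists_rd hC (fun z hz => tf_P b z hz) y
  obtain ⟨f, hf, rfl⟩ := exists_cls b z
  exact ⟨f, hf, rfl⟩

theorem red_of_cls_rd {k : ℤ} {f : KK p} (hf : HK p k f) (h : b.cls k f ≫ rd i P = 0) :
    red p f = 0 := by
  obtain ⟨z, hz⟩ := exists_of_rd hC _ h
  obtain ⟨g, hg, rfl⟩ := exists_cls b z
  rw [← cls_p b hg] at hz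
  rw [← cls_inj b (hk_p hg) hf hz, red_p]

include b in
theorem conc_P : Conc C 0 P := by
  intro k hk y
  rw [sub_zero] at hk
  obtain ⟨f, hf, rfl⟩ := exists_cls_rd b hC y
  rw [odd_hk hk hf, cls_zero, zero_comp]

end src

/-! ### the generators -/

section gen

variable {p n : ℕ} [Fact p.Prime] {R P W B : 𝒯} [MonObj R] [IsCommMonObj R] {b : BPS p R P W}
  (φ : FormD b n B)

/-- the generator of `π_* B` -/
noncomputable def q1 : PiM B := PiM.of B 0 (zr 𝒯 ≫ η[R] ≫ φ.q)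

theorem Q_linear : b.MP.IsLinear φ.MB φ.Q := by
  refine (b.c_bij0 R B φ.hB).1 ?_
  change (R ◁ b.c) ≫ b.MP.act ≫ φ.Q = (R ◁ b.c) ≫ (R ◁ φ.Q) ≫ φ.MB.act
  rw [← Category.assoc, ← b.c_lin, Category.assoc, φ.c_Q, φ.q_lin, ← Category.assoc,
    ← MonoidalCategory.whiskerLeft_comp, φ.c_Q]

theorem isLin_Q : IsLin b.MP φ.MB ((shiftFunctorZero 𝒯 ℤ).hom.app P ≫ φ.Q) := by
  have h1 : b.MP.act ≫ φ.Q = (R ◁ φ.Q) ≫ φ.MB.act := Q_linear φ
  unfold IsLin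
  rw [ext_zero_shift, ← h1, ← Category.assoc, ← Category.assoc]
  congr 1
  exact ((shiftFunctorZero 𝒯 ℤ).hom.naturality b.MP.act).symm

theorem of_cls_Q {k : ℤ} {f : KK p} (hf : HK p k f) :
    PiM.of B k (b.cls k f ≫ φ.Q) = b.kk φ.MB φ.hB f (q1 φ) := by
  rw [← map_zs, of_cls b hf, b.kk_lin b.MP b.cP φ.MB φ.hB _ (isLin_Q φ)]
  congr 1
  unfold BPS.unit
  rw [map_zs, q1]
  congr 1
  rw [Category.assoc, Category.assoc, φ.c_Q]

theorem q1_mem : q1 φ ∈ PiM.gr B 0 := ⟨_, rfl⟩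

theorem exists_B {k : ℤ} (z : (𝟙_ 𝒯)⟦k⟧ ⟶ B) : ∃ f : MvPolynomial (Fin n) ℤ_[p],
    HK p k (RN p n f) ∧ z = b.cls k (RN p n f) ≫ φ.Q := by
  obtain ⟨f, ⟨hf, hz⟩, -⟩ := φ.free k z
  refine ⟨f, hf, PiM.of_injective B k ?_⟩
  rw [of_cls_Q φ hf]
  exact hz

theorem B_inj {k : ℤ} {f g : MvPolynomial (Fin n) ℤ_[p]} (hf : HK p k (RN p n f))
    (hg : HK p k (RN p n g))
    (h : b.kk φ.MB φ.hB (RN p n f) (q1 φ) = b.kk φ.MB φ.hB (RN p n g) (q1 φ)) : f = g := by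
  obtain ⟨f', -, h2⟩ := φ.free k (b.cls k (RN p n f) ≫ φ.Q)
  have h3 := h2 f ⟨hf, of_cls_Q φ hf⟩
  have h4 := h2 g ⟨hg, (of_cls_Q φ hf).trans h⟩
  rw [h3, h4]

theorem RN_p (f : MvPolynomial (Fin n) ℤ_[p]) : RN p n ((p : MvPolynomial (Fin n) ℤ_[p]) * f) =
    (p : KK p) * RN p n f := by rw [map_mul, map_natCast]

include φ in
theorem tf_B {k : ℤ} (z : (𝟙_ 𝒯)⟦k⟧ ⟶ B) (hz : (p : ℤ) • z = 0) : z = 0 := by
  obtain ⟨f, hf, rfl⟩ := exists_B φ z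
  have h1 := congrArg (PiM.of B k) hz
  rw [map_zsmul, of_cls_Q φ hf, of_zsmul, map_zero, ← RN_p, ← kk_zero_apply b φ.MB φ.hB (q1 φ),
    ← map_zero (RN p n)] at h1
  have h2 := B_inj φ (by rw [RN_p]; exact hk_p hf) (by rw [map_zero]; exact hk_zero k) h1
  rcases mul_eq_zero.1 h2 with h3 | h3
  · exact absurd h3 (Nat.cast_ne_zero.2 (Fact.out : p.Prime).ne_zero)
  · rw [h3, map_zero, cls_zero, zero_comp]

variable {S : SrcT p n P}
  (hS : ∀ l, b.c⟦dd p n l⟧' ≫ S.x l = hat b.MP (b.cls (dd p n l) (φ.x l)))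

include hS

theorem isLin_x (l : ℕ) : IsLin b.MP b.MP (S.x l) := b.isLin_of_c b.cP (by
  rw [hS]
  exact hat_isLin _ _)

theorem gc_cls_x (l : ℕ) {k k' : ℤ} (h : dd p n l + k = k') {f : KK p} (hf : HK p k f) :
    gc h (b.cls k f) (S.x l) = b.cls k' (φ.x l * f) := by
  have h1 : HK p k' (φ.x l * f) := by
    rw [← h]
    exact (φ.x_deg l).mul hf
  refine PiM.of_injective P k' ?_
  rw [← map_of h, of_cls b hf, b.kk_lin b.MP b.cP b.MP b.cP _ (isLin_x φ hS l), of_cls b h1,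
    _root_.mul_comm, kk_mul_apply]
  congr 1
  unfold BPS.unit
  rw [map_of (add_zero (dd p n l)), gc_unit_shift, Functor.map_comp, Category.assoc, hS,
    unit_hat, of_cls b (φ.x_deg l)]
  rfl

theorem x_Q (l : ℕ) : S.x l ≫ φ.Q = 0 := by
  refine b.ext_c φ.hB ?_
  have h1 : b.cls (dd p n l) (φ.x l) ≫ φ.Q = 0 := by
    refine PiM.of_injective B _ ?_
    rw [of_cls_Q φ (φ.x_deg l), map_zero]
    exact φ.x_zero l
  rw [comp_zero, ← Category.assoc, hS]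
  refine isLin_self_ext (M := φ.MB) ((hat_isLin b.MP _).comp (Q_linear φ)) (IsLin.zero _ _ _) ?_
  rw [← Category.assoc, unit_hat, h1, comp_zero]

end gen

end Vale.Agent.P221.H903
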